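import Vale.Agent.P146.H260.V14R

set_option linter.all false

/-!
# P146: from the entropy at all scales to the exponential moments at all scales
-/

open MeasureTheory ProbabilityTheory Filter Topology

namespace Vale.Agent.P146.H695

open Vale.Agent.P146 Vale.Agent.P146.H605

/-- `log E exp (x (F - E F)) ≤ n ^ (1 + ε) x ^ 6` for all `n ^ (-1/6) ≤ x ≤ n ^ (-a)`. -/
def UpM (β a : ℝ) : Prop := ∀ ε : ℝ, 0 < ε → ∀ᶠ n : ℕ in atTop, ∀ x : ℝ,
  (n : ℝ) ^ (-(1 / 6) : ℝ) ≤ x → x ≤ (n : ℝ) ^ (-a) →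
  Real.log (∫ g, Real.exp (x * (freeEnergy n β g - ∫ h, freeEnergy n β h ∂(disorder n)))
    ∂(disorder n)) ≤ (n : ℝ) ^ (1 + ε) * x ^ 6

/-- **Passage from the entropy to the exponential moments.** -/
theorem utc_of {β a b₀ : ℝ} (hab : -a < b₀)
    (hV : ∀ ε : ℝ, 0 < ε → ∀ᶠ n : ℕ in atTop, ∀ x0 : ℝ, (n : ℝ) ^ (-(1 / 6) : ℝ) ≤ x0 →
      x0 ≤ (n : ℝ) ^ b₀ → H260.V14.VX β n (x0 / 2) < (n : ℝ) ^ (1 + ε : ℝ) * x0 ^ 4) :
    UpM β a := by
  intro ε hε
  have hε2 : 0 < ε / 2 := by positivity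
  have hab' : 0 < b₀ + a := by linarith
  have hev1 := ((tendsto_rpow_atTop hε2).comp tendsto_natCast_atTop_atTop).eventually_ge_atTop
    (8 : ℝ)
  have hev2 := ((tendsto_rpow_atTop hab').comp tendsto_natCast_atTop_atTop).eventually_ge_atTop
    (2 : ℝ)
  filter_upwards [hV (ε / 2) hε2, hev1, hev2, eventually_ge_atTop 1] with n h h8 h2 hn x hl hu
  simp only [Function.comp] at h8 h2
  have hn1 : (1 : ℝ) ≤ n := by exact_mod_cast hn
  have hn0 : (0 : ℝ) < n := by linarith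
  have hx0 : 0 < x := (Real.rpow_pos_of_pos hn0 _).trans_le hl
  have hu2 : 2 * x ≤ (n : ℝ) ^ b₀ := by
    calc 2 * x ≤ (n : ℝ) ^ (b₀ + a) * (n : ℝ) ^ (-a) := by gcongr
      _ = (n : ℝ) ^ b₀ := by rw [← Real.rpow_add hn0]; congr 1; ring
  have h1 := h (2 * x) (by linarith) hu2
  have e1 : 2 * x / 2 = x := by ring
  rw [e1] at h1
  have h3 := H260.V14.mgf_both (β := β) (n := n) hn hx0 (le_refl x)
  have h4 : 0 < ∫ g, Real.exp (x * (freeEnergy n β g - ∫ h, freeEnergy n β h ∂(disorder n)))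
      ∂(disorder n) := by
    have hprob : IsProbabilityMeasure (disorder n) := by
      unfold disorder
      infer_instance
    have hi := H260.V13.int_exp_sk n β x
    have e : (fun g => Real.exp (x * (freeEnergy n β g - ∫ h, freeEnergy n β h ∂(disorder n)))) =
        fun g => Real.exp (x * freeEnergy n β g) *
          Real.exp (-(x * ∫ h, freeEnergy n β h ∂(disorder n))) := by
      funext g
      rw [← Real.exp_add]
      congr 1
      ring
    rw [e]
    have hi' : Integrable (fun g => Real.exp (x * freeEnergy n β g) *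
        Real.exp (-(x * ∫ h, freeEnergy n β h ∂(disorder n)))) (disorder n) := by
      exact Integrable.mul_const hi _
    have := integral_exp_pos (μ := disorder n) (f := fun g => x * freeEnergy n β g +
      -(x * ∫ h, freeEnergy n β h ∂(disorder n))) (by simpa only [Real.exp_add] using hi')
    simpa only [Real.exp_add] using this
  have h5 := Real.log_le_log h4 h3
  rw [Real.log_exp] at h5
  refine h5.trans ?_
  have h6 : x ^ 2 / 2 * H260.V14.VX β n x ≤ x ^ 2 / 2 * ((n : ℝ) ^ (1 + ε / 2 : ℝ) *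
      (2 * x) ^ 4) := mul_le_mul_of_nonneg_left h1.le (by positivity)
  refine h6.trans ?_
  have e2 : x ^ 2 / 2 * ((n : ℝ) ^ (1 + ε / 2 : ℝ) * (2 * x) ^ 4) =
      8 * (n : ℝ) ^ (1 + ε / 2 : ℝ) * x ^ 6 := by ring
  rw [e2]
  refine mul_le_mul_of_nonneg_right ?_ (by positivity)
  calc 8 * (n : ℝ) ^ (1 + ε / 2 : ℝ) ≤ (n : ℝ) ^ (ε / 2) * (n : ℝ) ^ (1 + ε / 2 : ℝ) := by gcongr
    _ = (n : ℝ) ^ (1 + ε) := by rw [← Real.rpow_add hn0]; congr 1; ring

end Vale.Agent.P146.H695
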