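import Vale.Agent.P146.H695.VL
import Vale.Agent.P146.H95.Top
import Vale.Agent.P146.R3.H453.Plug

/-!
# P146: consequences of a power lower bound for the variance

Everything from `∀ γ < θ, ∀ᶠ n, n ^ γ ≤ Var F_n`: small balls, limit laws, and, for `θ = 1 / 3`
and with the upper bound, the exponent of the variance and the typical size of the fluctuations.
-/

open MeasureTheory ProbabilityTheory Set Filter Topology

namespace Vale.Agent.P146.H695

open Vale.Agent.P146.H605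

/-- A power lower bound with every exponent below `θ`. -/
def LowV (β θ : ℝ) : Prop :=
  ∀ γ : ℝ, γ < θ → ∀ᶠ n : ℕ in atTop, (n : ℝ) ^ γ ≤ Var[freeEnergy n β; disorder n]

/-- Small balls at power scales. -/
theorem small_gen {β θ : ℝ} (hV : LowV β θ) {κ c : ℝ} (hκ0 : 0 ≤ κ) (hκ : κ + c < θ / 2) :
    ∀ᶠ n : ℕ in atTop, ∀ y : ℝ,
      (disorder n).real {g | |freeEnergy n β g - y| ≤ (n : ℝ) ^ κ} ≤ (n : ℝ) ^ (-c) := by
  obtain ⟨γ, hγ⟩ : ∃ γ, γ = (κ + c + θ / 2) := ⟨_, rfl⟩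
  have hγ1 : γ < θ := by rw [hγ]; linarith
  have hγ2 : κ + c < γ / 2 := by rw [hγ]; linarith
  have h1 := hV γ hγ1
  have h2 : Tendsto (fun n : ℕ => (n : ℝ) ^ (γ / 2 - κ - c)) atTop atTop :=
    (tendsto_rpow_atTop (by linarith)).comp tendsto_natCast_atTop_atTop
  filter_upwards [h1, h2.eventually_ge_atTop 5220, eventually_ge_atTop 1] with n h3 h4 hn y
  have hn1 : (1 : ℝ) ≤ n := by exact_mod_cast hn
  have hn0 : (0 : ℝ) < n := by linarith
  have hk1 : 1 ≤ (n : ℝ) ^ κ := Real.one_le_rpow hn1 hκ0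
  refine (H655.anticoncentration n β y (by positivity)).trans ?_
  have hs : (n : ℝ) ^ (γ / 2) ≤ 1 + √Var[freeEnergy n β; disorder n] := by
    have h5 : (n : ℝ) ^ (γ / 2) = √((n : ℝ) ^ γ) := by
      rw [Real.sqrt_eq_rpow, ← Real.rpow_mul hn0.le]
      congr 1
      ring
    rw [h5]
    have := Real.sqrt_le_sqrt h3
    linarith
  have hg : 0 < (n : ℝ) ^ (γ / 2) := by positivity
  calc 2610 * ((n : ℝ) ^ κ + 1) / (1 + √Var[freeEnergy n β; disorder n])
      ≤ 2610 * ((n : ℝ) ^ κ + (n : ℝ) ^ κ) / (n : ℝ) ^ (γ / 2) := by gcongr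
    _ = 5220 * (n : ℝ) ^ κ / (n : ℝ) ^ (γ / 2) := by ring
    _ ≤ (n : ℝ) ^ (γ / 2 - κ - c) * (n : ℝ) ^ κ / (n : ℝ) ^ (γ / 2) := by gcongr
    _ = (n : ℝ) ^ (-c) := by
        rw [← Real.rpow_add hn0, ← Real.rpow_sub hn0]
        congr 1
        ring

/-- The variance tends to infinity. -/
theorem var_atTop {β θ : ℝ} (hθ : 0 < θ) (hV : LowV β θ) :
    Tendsto (fun n : ℕ => Var[freeEnergy n β; disorder n]) atTop atTop := by
  have h1 := hV (θ / 2) (by linarith)
  have h2 : Tendsto (fun n : ℕ => (n : ℝ) ^ (θ / 2)) atTop atTop :=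
    (tendsto_rpow_atTop (by linarith)).comp tendsto_natCast_atTop_atTop
  exact tendsto_atTop_mono' _ h1 h2

/-- Chaos from the lower bound of the variance. -/
theorem chaos_gen {β θ : ℝ} (hθ : 0 < θ) (hV : LowV β θ) {γ : ℝ} (hγ : γ < θ) :
    ∀ᶠ n : ℕ in atTop, ∃ t : ℝ, 0 ≤ t ∧ t < 1 ∧ (n : ℝ) ^ γ ≤ n * (1 - t) * crossOverlap n β t :=
  Tb.prof_grow hθ hV γ hγ

/-- **The exponent of the variance is `1 / 3`.** -/
theorem exponent {β : ℝ} (hβ : 0 < β) (hV : LowV β (1 / 3)) :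
    Tendsto (fun n : ℕ => Real.log (Var[freeEnergy n β; disorder n]) / Real.log n) atTop
      (𝓝 (1 / 3)) := by
  rw [Metric.tendsto_nhds]
  intro ε hε
  obtain ⟨D, hD, h⟩ := H95.fluct hβ (ε / 2) (by positivity)
  have h1 := hV (1 / 3 - ε / 2) (by linarith)
  have h2 : Tendsto (fun n : ℕ => Real.log n) atTop atTop :=
    Real.tendsto_log_atTop.comp tendsto_natCast_atTop_atTop
  filter_upwards [h1, h2.eventually_gt_atTop (4 * Real.log D / ε), h2.eventually_gt_atTop 0,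
    eventually_ge_atTop 1] with n h3 h4 h5 hn
  have hn1 : (1 : ℝ) ≤ n := by exact_mod_cast hn
  have hn0 : (0 : ℝ) < n := by linarith
  have hup := (h n hn).1
  have hp : 0 < (n : ℝ) ^ (1 / 3 - ε / 2) := by positivity
  have hV0 : 0 < Var[freeEnergy n β; disorder n] := lt_of_lt_of_le hp h3
  have hD0 : 0 < D := by linarith
  have h6 : (1 / 3 - ε / 2) * Real.log n ≤ Real.log (Var[freeEnergy n β; disorder n]) := by
    rw [← Real.log_rpow hn0]
    exact Real.log_le_log hp h3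
  have h7 : Real.log (Var[freeEnergy n β; disorder n]) ≤
      Real.log D + (1 / 3 + ε / 2) * Real.log n := by
    rw [← Real.log_rpow hn0, ← Real.log_mul hD0.ne' (by positivity)]
    exact Real.log_le_log hV0 hup
  have h8 : Real.log D < ε / 4 * Real.log n := by
    rw [div_lt_iff₀ hε] at h4
    linarith
  rw [Real.dist_eq, abs_lt]
  constructor
  · rw [lt_sub_iff_add_lt, lt_div_iff₀ h5]
    nlinarith
  · rw [sub_lt_iff_lt_add, div_lt_iff₀ h5]
    nlinarith

/-- **The typical size of the fluctuations is `n ^ (1 / 6 + o(1))`.** -/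
theorem typical {β : ℝ} (hV : LowV β (1 / 3)) {ε c : ℝ} (hc : c < ε) (hε : ε ≤ 1 / 6) :
    ∀ᶠ n : ℕ in atTop, (disorder n).real {g |
      |freeEnergy n β g - ∫ h, freeEnergy n β h ∂(disorder n)| ≤ (n : ℝ) ^ (1 / 6 - ε)} ≤
        (n : ℝ) ^ (-c) :=
  (small_gen hV (κ := 1 / 6 - ε) (c := c) (by linarith) (by linarith)).mono fun _ hn => hn _

end Vale.Agent.P146.H695
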