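import Vale.Agent.P146.H695.Sub1
import Vale.Agent.P146.H329.Dbl17

set_option linter.all false

/-!
# P146: the variance of the free energy is at least `n ^ (4 / 17 - ε)`
-/

open MeasureTheory ProbabilityTheory Filter Topology

namespace Vale.Agent.P146.H695.Sub

open Vale.Agent.P146 Vale.Agent.P146.H605

theorem sub17 (β : ℝ) : ∀ a' : ℝ, 1 / 3 < a' → SubX β a' (1 / 3) := by
  intro a' ha'
  obtain ⟨C, hC, h⟩ := H329.dbl17' β
  obtain ⟨d, hd⟩ : ∃ d, d = a' - 1 / 3 := ⟨_, rfl⟩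
  have hd0 : 0 < d := by rw [hd]; linarith
  refine ⟨C * (1 + 1 / d), by positivity, fun n hn x hx hx2 hxn => ?_⟩
  have h1 := h n hn x hx (by linarith) hxn
  have hn1 : (1 : ℝ) ≤ n := by exact_mod_cast hn
  have hn0 : (0 : ℝ) < n := by linarith
  have h2 : Real.log n ≤ (n : ℝ) ^ d / d := Real.log_le_rpow_div hn0.le hd0
  have h3 : (1 : ℝ) ≤ (n : ℝ) ^ d := Real.one_le_rpow hn1 hd0.le
  have h4 : 1 + Real.log n ≤ (1 + 1 / d) * (n : ℝ) ^ d := by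
    have : (1 + 1 / d) * (n : ℝ) ^ d = (n : ℝ) ^ d + (n : ℝ) ^ d / d := by ring
    rw [this]
    linarith
  have e1 : (n : ℝ) ^ a' = (n : ℝ) ^ (1 / 3 : ℝ) * (n : ℝ) ^ d := by
    rw [← Real.rpow_add hn0]
    congr 1
    rw [hd]; ring
  have h5 : C * x ^ (1 / 3 : ℝ) * (n : ℝ) ^ (1 / 3 : ℝ) * (1 + Real.log n) ≤
      C * x ^ (1 / 3 : ℝ) * (n : ℝ) ^ (1 / 3 : ℝ) * ((1 + 1 / d) * (n : ℝ) ^ d) :=
    mul_le_mul_of_nonneg_left h4 (by positivity)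
  have h6 : C * (1 + 1 / d) * ((n : ℝ) ^ a' * x ^ (1 / 3 : ℝ)) =
      C * x ^ (1 / 3 : ℝ) * (n : ℝ) ^ (1 / 3 : ℝ) * ((1 + 1 / d) * (n : ℝ) ^ d) := by
    rw [e1]; ring
  unfold LZ
  rw [h6]
  linarith

/-- **The lower bound of the centered moments**, `x ≥ n ^ (-2/17 +)`. -/
theorem lob17 {β : ℝ} (hβ : 1 < β) : H260.Dev.Lob β (2 / 17) :=
  lob hβ (a := 1 / 3) (b := 1 / 3) (by norm_num) (by norm_num) (by norm_num) (by norm_num)
    (sub17 β)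

/-- **`Var F_n ≥ n ^ γ` for `γ < 4 / 17`.** -/
theorem lowV17 {β : ℝ} (hβ : 1 < β) : LowV β (4 / 17) := by
  have h := lowV_of_lob (by norm_num) (by norm_num) (lob17 hβ)
  have e : (2 * (2 / 17) : ℝ) = 4 / 17 := by norm_num
  rwa [e] at h

end Vale.Agent.P146.H695.Sub
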