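import Vale.Agent.P146.H695.VL
import Vale.Agent.P146.H737.C3

/-!
# P146: small balls of the free energy, exponent `1 / 30`
-/

open MeasureTheory ProbabilityTheory Set Filter Topology

namespace Vale.Agent.P146.H695

open Vale.Agent.P146.H605

/-- Small balls at a power scale. -/
theorem small_pow2 {β : ℝ} (hβ : 1 < β) {κ : ℝ} (hκ0 : 0 ≤ κ) (hκ : κ < 1 / 30) :
    ∀ᶠ n : ℕ in atTop, ∀ y : ℝ,
      (disorder n).real {g | |freeEnergy n β g - y| ≤ (n : ℝ) ^ κ} ≤ (n : ℝ) ^ (-κ) := by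
  obtain ⟨γ, hγ⟩ : ∃ γ, γ = (4 * κ + 2 / 15) / 2 := ⟨_, rfl⟩
  have hγ1 : γ < 2 / 15 := by rw [hγ]; linarith
  have hγ2 : 4 * κ < γ := by rw [hγ]; linarith
  have h1 := H737.var_low2 hβ γ hγ1
  have h2 : Tendsto (fun n : ℕ => (n : ℝ) ^ (γ / 2 - 2 * κ)) atTop atTop :=
    (tendsto_rpow_atTop (by linarith)).comp tendsto_natCast_atTop_atTop
  filter_upwards [h1, h2.eventually_ge_atTop 5220, eventually_ge_atTop 1] with n h3 h4 hn y
  have hn1 : (1 : ℝ) ≤ n := by exact_mod_cast hn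
  have hn0 : (0 : ℝ) < n := by linarith
  have hk1 : 1 ≤ (n : ℝ) ^ κ := Real.one_le_rpow hn1 hκ0
  refine (H655.anticoncentration n β y (by positivity)).trans ?_
  have hs : (n : ℝ) ^ (γ / 2) ≤ 1 + √Var[freeEnergy n β; disorder n] := by
    have h5 : (n : ℝ) ^ (γ / 2) = √((n : ℝ) ^ γ) := by
      rw [Real.sqrt_eq_rpow, ← Real.rpow_mul hn0.le]
      congr 1
      ring
    rw [h5]
    have := Real.sqrt_le_sqrt h3.1
    linarith
  have hg : 0 < (n : ℝ) ^ (γ / 2) := by positivity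
  calc 2610 * ((n : ℝ) ^ κ + 1) / (1 + √Var[freeEnergy n β; disorder n])
      ≤ 2610 * ((n : ℝ) ^ κ + (n : ℝ) ^ κ) / (n : ℝ) ^ (γ / 2) := by gcongr
    _ = (5220 * (n : ℝ) ^ (2 * κ)) * (n : ℝ) ^ (-κ) / (n : ℝ) ^ (γ / 2) := by
        rw [mul_assoc, ← Real.rpow_add hn0]
        rw [show 2 * κ + -κ = κ by ring]
        ring
    _ ≤ ((n : ℝ) ^ (γ / 2 - 2 * κ) * (n : ℝ) ^ (2 * κ)) * (n : ℝ) ^ (-κ) / (n : ℝ) ^ (γ / 2) := by
        gcongr
    _ = (n : ℝ) ^ (-κ) := by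
        rw [← Real.rpow_add hn0, show γ / 2 - 2 * κ + 2 * κ = γ / 2 by ring]
        field_simp

end Vale.Agent.P146.H695
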