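import Vale.Agent.P146.H737.R1b

set_option linter.all false

/-!
# P146: the end of the contradiction at a general scale `x₀ ∈ [n ^ (-1/6), n ^ b₀]`
-/

open Filter Topology

namespace Vale.Agent.P146.H695

open H737.R1 (four_or expo)

/-- **The final contradiction at the scale `x₀`.** -/
theorem real_false_at {C a c c₁ e b₀ : ℝ} (hC : 0 ≤ C) (ha : 0 < a) (he : 14 * a < e)
    (he1 : 6 * a + 4 * c₁ < e) (hc : 2 * a < c) (hb0 : 3 * a < -b₀) (ha2 : 2 * a < 1 / 100)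
    (hc10 : 0 ≤ c₁) :
    ∃ n₀ : ℝ, 1 ≤ n₀ ∧ ∀ n : ℝ, n₀ ≤ n → ∀ T r x x0 : ℝ, 0 < T → T ≤ 1 → 0 < r → 0 ≤ x →
      n ^ (-(1 / 6) : ℝ) ≤ x0 → x0 ≤ n ^ b₀ →
      x ≤ x0 * n ^ a → n ^ e * x0 ^ 4 ≤ r ^ 2 * T →
      T ≤ C * n ^ a * (√(1 / (n * T)) + x * r + r ^ 2 + 1 / n) →
      (T ≤ n ^ (-(1 / 100) : ℝ) → n ^ c₁ * x0 ≤ r →
        r ^ 2 ≤ C * n ^ a * (√(1 / (n * T)) + x * r + n ^ (-c) * r ^ 2 + 1 / n)) →
      (n ^ (-(1 / 100) : ℝ) ≤ T → r ^ 2 ≤ n ^ (-(1 / 50) : ℝ)) → False := by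
  obtain ⟨n₁, hn₁⟩ := Filter.eventually_atTop.1
    ((tendsto_rpow_atTop ha).eventually_ge_atTop (4 * C))
  refine ⟨max 2 n₁, (by norm_num : (1 : ℝ) ≤ 2).trans (le_max_left _ _),
    fun n hn T r x x0 hT hT1 hr hx0 hl hu hx H LAM KAP h7 => ?_⟩
  have hn2 : (2 : ℝ) ≤ n := (le_max_left _ _).trans hn
  have hn1 : 1 < n := by linarith
  have hn0 : 0 < n := by linarith
  have h4 : 4 * C ≤ n ^ a := hn₁ n ((le_max_right _ _).trans hn)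
  have hle : ∀ {p q : ℝ}, n ^ p ≤ n ^ q ↔ p ≤ q := fun {p q} => Real.rpow_le_rpow_left_iff hn1
  have hx00 : 0 < x0 := (Real.rpow_pos_of_pos hn0 _).trans_le hl
  obtain ⟨τ, hτ⟩ : ∃ τ : ℝ, n ^ τ = T := ⟨Real.logb n T, Real.rpow_logb hn0 hn1.ne' hT⟩
  obtain ⟨ρ, hρ⟩ : ∃ ρ : ℝ, n ^ ρ = r := ⟨Real.logb n r, Real.rpow_logb hn0 hn1.ne' hr⟩
  obtain ⟨ξ, hξ⟩ : ∃ ξ : ℝ, n ^ ξ = x0 := ⟨Real.logb n x0, Real.rpow_logb hn0 hn1.ne' hx00⟩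
  have hξ6 : -(1 / 6) ≤ ξ := by rw [← hξ] at hl; exact hle.1 hl
  have hξb : ξ ≤ b₀ := by rw [← hξ] at hu; exact hle.1 hu
  have hr2 : r ^ 2 = n ^ (2 * ρ) := by
    rw [← hρ, ← Real.rpow_natCast, ← Real.rpow_mul hn0.le]; congr 1; push_cast; ring
  have hx4 : x0 ^ 4 = n ^ (4 * ξ) := by
    rw [← hξ, ← Real.rpow_natCast, ← Real.rpow_mul hn0.le]; congr 1; push_cast; ring
  have hτ0 : τ ≤ 0 := by
    rw [← hle, hτ, Real.rpow_zero]; exact hT1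
  have hsq : √(1 / (n * T)) = n ^ ((-1 - τ) / 2) := by
    rw [← hτ, Real.sqrt_eq_rpow, one_div, Real.inv_rpow (by positivity), ← Real.rpow_neg
      (by positivity)]
    have e1 : n * n ^ τ = n ^ (1 + τ) := by rw [Real.rpow_add hn0, Real.rpow_one]
    rw [e1, ← Real.rpow_mul hn0.le]
    congr 1
    ring
  have hxr : x * r ≤ n ^ (ξ + a + ρ : ℝ) := by
    rw [Real.rpow_add hn0, Real.rpow_add hn0, hρ, hξ]
    exact mul_le_mul_of_nonneg_right hx hr.le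
  have hinv : 1 / n = n ^ (-1 : ℝ) := by rw [Real.rpow_neg_one, one_div]
  -- the exponents
  have H' : e + 4 * ξ ≤ 2 * ρ + τ := by
    rw [hr2, ← hτ, hx4, ← Real.rpow_add hn0, ← Real.rpow_add hn0] at H
    exact hle.1 H
  have LAM' : τ ≤ 2 * a + (-1 - τ) / 2 ∨ τ ≤ 2 * a + (ξ + a + ρ) ∨
      τ ≤ 2 * a + 2 * ρ ∨ τ ≤ 2 * a + -1 := by
    have h1 := LAM
    rcases four_or h1 with h2 | h2 | h2 | h2
    · left
      refine expo hn1 hC h4 (Real.sqrt_nonneg _) hsq.le ?_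
      rw [hτ]; exact h2
    · right; left
      refine expo hn1 hC h4 (by positivity) hxr ?_
      rw [hτ]; exact h2
    · right; right; left
      refine expo hn1 hC h4 (by positivity) hr2.le ?_
      rw [hτ]; exact h2
    · right; right; right
      refine expo hn1 hC h4 (by positivity) hinv.le ?_
      rw [hτ]; exact h2
  have KAP' : τ ≤ -(1 / 100) → ρ < ξ + c₁ ∨ 2 * ρ ≤ 2 * a + (-1 - τ) / 2 ∨
      2 * ρ ≤ 2 * a + (ξ + a + ρ) ∨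
      2 * ρ ≤ 2 * a + (-c + 2 * ρ) ∨ 2 * ρ ≤ 2 * a + -1 := by
    intro h
    by_cases hxr' : n ^ c₁ * x0 ≤ r
    · right
      have h1 := KAP (by rw [← hτ]; exact hle.2 h) hxr'
      rw [hr2] at h1
      rcases four_or h1 with h2 | h2 | h2 | h2
      · left
        exact expo hn1 hC h4 (Real.sqrt_nonneg _) hsq.le h2
      · right; left
        exact expo hn1 hC h4 (by positivity) hxr h2
      · right; right; left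
        refine expo hn1 hC h4 (by positivity) ?_ h2
        rw [← Real.rpow_add hn0]
      · right; right; right
        exact expo hn1 hC h4 (by positivity) hinv.le h2
    · left
      push Not at hxr'
      rw [← Real.rpow_lt_rpow_left_iff hn1, hρ]
      calc r < n ^ c₁ * x0 := hxr'
        _ = n ^ (ξ + c₁ : ℝ) := by rw [← hξ, ← Real.rpow_add hn0]; congr 1; ring
  have h7' : -(1 / 100) ≤ τ → 2 * ρ ≤ -(1 / 50) := by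
    intro h
    have h1 := h7 (by rw [← hτ]; exact hle.2 h)
    rw [hr2] at h1
    exact hle.1 h1
  -- the cases
  rcases le_total (-(1 / 100)) τ with h0 | h0
  · have h1 := h7' h0
    rcases LAM' with h2 | h2 | h2 | h2 <;> linarith
  · rcases KAP' h0 with h1 | h1 | h1 | h1 | h1
    · rcases LAM' with h2 | h2 | h2 | h2 <;> linarith
    · rcases LAM' with h2 | h2 | h2 | h2 <;> linarith
    · rcases LAM' with h2 | h2 | h2 | h2 <;> linarith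
    · linarith
    · rcases LAM' with h2 | h2 | h2 | h2 <;> linarith

/-- **The end of the contradiction at all scales.** `P c n A T ρ x`: the data at the scale
`(x, T, ρ)`, `A = n ^ α`. From `n ^ (1 + ε) x₀ ^ 4 ≤ V n x₀` (`hF`), the Lambda inequality (`hL`)
and the kappa inequality (`hK`): `V n x₀ < n ^ (1 + ε) x₀ ^ 4` for all
`n ^ (-1/6) ≤ x₀ ≤ n ^ b₀`, any `b₀ < b₁ ≤ 0`. -/
theorem core_at {β b₀ b₁ : ℝ} (hβ : β ≠ 0) (hb : b₀ < b₁) (hb1 : b₁ ≤ 0) {V : ℕ → ℝ → ℝ}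
    {P : ℝ → ℕ → ℝ → ℝ → ℝ → ℝ → Prop}
    (hF : ∀ ε α c : ℝ, 0 < α → 100 * α ≤ c → 8 * c = ε → ε ≤ 1 / 10 → ∃ n₀ : ℕ, ∀ n : ℕ,
      n₀ ≤ n → ∀ x0 : ℝ, (n : ℝ) ^ (-(1 / 6) : ℝ) ≤ x0 → x0 ≤ (n : ℝ) ^ (b₁ - α) →
        (n : ℝ) ^ (1 + ε : ℝ) * x0 ^ 4 ≤ V n x0 → ∃ T ρ x : ℝ, P c n ((n : ℝ) ^ α) T ρ x ∧
        0 < T ∧ T ≤ 1 ∧ 0 < ρ ∧ 2 * ρ ≤ β ^ 2 * n ∧ x0 ≤ x ∧
        x ≤ x0 * (n : ℝ) ^ (2 * α) ∧ (n : ℝ) ^ (1 + ε - 3 * α) * x0 ^ 6 ≤ x ^ 2 * ρ * T ∧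
        ((n : ℝ) ^ (-(1 / 100) : ℝ) ≤ T → 2 * ρ / (β ^ 2 * n) ≤ (n : ℝ) ^ (-(1 / 50) : ℝ)))
    (hL : ∀ c : ℝ, 0 < c → ∃ C : ℝ, ∃ m : ℕ, ∃ α₀ : ℝ, 0 < α₀ ∧ ∀ α : ℝ, 0 < α → α ≤ α₀ →
      ∃ n₀ : ℕ, ∀ n : ℕ, n₀ ≤ n → ∀ T ρ x : ℝ,
      P c n ((n : ℝ) ^ α) T ρ x → T ≤ C * ((n : ℝ) ^ α) ^ m * (√(1 / (n * T)) +
        x * √(2 * ρ / (β ^ 2 * n)) + 2 * ρ / (β ^ 2 * n) + 1 / n))
    (hK : ∀ c : ℝ, 0 < c → ∃ C : ℝ, ∃ m : ℕ, ∃ k α₀ : ℝ, 0 < k ∧ 0 < α₀ ∧ ∀ α : ℝ, 0 < α →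
      α ≤ α₀ → ∃ n₀ : ℕ, ∀ n : ℕ, n₀ ≤ n → ∀ T ρ x : ℝ, P c n ((n : ℝ) ^ α) T ρ x →
      T ≤ 1 / (n : ℝ) ^ α → (n : ℝ) ^ c * x ≤ √(2 * ρ / (β ^ 2 * n)) →
      2 * ρ / (β ^ 2 * n) ≤ C * ((n : ℝ) ^ α) ^ m * (√(1 / (n * T)) +
        x * √(2 * ρ / (β ^ 2 * n)) + ((1 / (x ^ 2 * ρ * T) + 1 / (n * T)) ^ k + x ^ k) *
          (2 * ρ / (β ^ 2 * n)) + 1 / n)) :
    ∀ ε : ℝ, 0 < ε → ∀ᶠ n : ℕ in atTop, ∀ x0 : ℝ, (n : ℝ) ^ (-(1 / 6) : ℝ) ≤ x0 →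
      x0 ≤ (n : ℝ) ^ b₀ → V n x0 < (n : ℝ) ^ (1 + ε : ℝ) * x0 ^ 4 := by
  have hb0 : 0 < -b₀ := by linarith
  -- reduce to a small `ε`
  suffices H : ∀ ε : ℝ, 0 < ε → ε ≤ 1 / 10 → ε ≤ -b₀ → ∀ᶠ n : ℕ in atTop, ∀ x0 : ℝ,
      (n : ℝ) ^ (-(1 / 6) : ℝ) ≤ x0 →
      x0 ≤ (n : ℝ) ^ b₀ → V n x0 < (n : ℝ) ^ (1 + ε : ℝ) * x0 ^ 4 by
    intro ε hε
    filter_upwards [H (min ε (min (1 / 10) (-b₀))) (lt_min hε (lt_min (by norm_num) hb0))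
      ((min_le_right _ _).trans (min_le_left _ _)) ((min_le_right _ _).trans (min_le_right _ _)),
      eventually_ge_atTop 1] with n hn hn1 x0 hl hu
    have hn1' : (1 : ℝ) ≤ n := by exact_mod_cast hn1
    have hx00 : 0 < x0 := (Real.rpow_pos_of_pos (by linarith) _).trans_le hl
    refine (hn x0 hl hu).trans_le (mul_le_mul_of_nonneg_right
      (Real.rpow_le_rpow_of_exponent_le hn1' ?_) (by positivity))
    have := min_le_left ε (min (1 / 10) (-b₀))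
    linarith
  intro ε hε hε1 hεb
  obtain ⟨c, hc⟩ : ∃ c : ℝ, c = ε / 8 := ⟨_, rfl⟩
  have hc0 : 0 < c := by rw [hc]; positivity
  obtain ⟨C₁, m₁, α₁, hα₁, hL⟩ := hL c hc0
  obtain ⟨C₂, m₂, k, α₂, hk, hα₂, hK⟩ := hK c hc0
  have hβ2 : 0 < β ^ 2 := by positivity
  -- the parameters
  obtain ⟨M, hM⟩ : ∃ M : ℝ, M = (m₁ : ℝ) + m₂ + 2 := ⟨_, rfl⟩
  have hm₁ : (0 : ℝ) ≤ m₁ := Nat.cast_nonneg _
  have hm₂ : (0 : ℝ) ≤ m₂ := Nat.cast_nonneg _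
  have hM2 : 2 ≤ M := by rw [hM]; linarith
  have hM0 : 0 < M := by linarith
  obtain ⟨κ, hκ⟩ : ∃ κ : ℝ, κ = min k 1 := ⟨_, rfl⟩
  have hκ0 : 0 < κ := by rw [hκ]; exact lt_min hk one_pos
  have hκk : κ ≤ k := by rw [hκ]; exact min_le_left _ _
  have hκ1 : κ ≤ 1 := by rw [hκ]; exact min_le_right _ _
  obtain ⟨a, ha⟩ : ∃ a : ℝ, a = ε * κ / 400 := ⟨_, rfl⟩
  have hεκ : ε * κ ≤ ε := by nlinarith
  have hεκk : ε * κ ≤ k * ε := by nlinarith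
  have ha0 : 0 < a := by rw [ha]; positivity
  have haε : a ≤ ε / 400 := by rw [ha]; linarith
  obtain ⟨α, hα0, hαM, hαα₁, hαα₂, hαb⟩ : ∃ α : ℝ, 0 < α ∧ α * M ≤ a ∧ α ≤ α₁ ∧ α ≤ α₂ ∧
      α ≤ b₁ - b₀ := by
    refine ⟨min (min (a / M) (b₁ - b₀)) (min α₁ α₂),
      lt_min (lt_min (by positivity) (by linarith)) (lt_min hα₁ hα₂), ?_,
      (min_le_right _ _).trans (min_le_left _ _), (min_le_right _ _).trans (min_le_right _ _),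
      (min_le_left _ _).trans (min_le_right _ _)⟩
    calc min (min (a / M) (b₁ - b₀)) (min α₁ α₂) * M ≤ a / M * M :=
          mul_le_mul_of_nonneg_right ((min_le_left _ _).trans (min_le_left _ _)) hM0.le
      _ = a := by field_simp
  have hαa : 2 * α ≤ a := by nlinarith
  have hkε : 0 < k * ε / 4 := by positivity
  obtain ⟨r₀, hr₀1, hr₀⟩ := real_false_at (C := |C₁| + |C₂|) (a := a) (c := k * ε / 4)
    (c₁ := c + 2 * α) (e := ε - 8 * α) (b₀ := b₀) (by positivity) ha0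
    (by linarith) (by linarith) (by rw [ha]; linarith) (by linarith) (by linarith)
    (by positivity)
  obtain ⟨n₁, hn₁⟩ := hF ε α c hα0 (by rw [hc]; linarith) (by rw [hc]; ring) hε1
  obtain ⟨n₂, hn₂⟩ := hL α hα0 hαα₁
  obtain ⟨n₃, hn₃⟩ := hK α hα0 hαα₂
  have hev1 := ((tendsto_rpow_atTop hα0).comp tendsto_natCast_atTop_atTop).eventually_ge_atTop
    (β ^ 2 / 2)
  have hev2 := ((tendsto_rpow_atTop hkε).comp tendsto_natCast_atTop_atTop).eventually_ge_atTop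
    (2 ^ k + 1)
  have hev3 : ∀ᶠ n : ℕ in atTop, r₀ ≤ (n : ℝ) :=
    tendsto_natCast_atTop_atTop.eventually_ge_atTop r₀
  filter_upwards [hev1, hev2, hev3, eventually_ge_atTop n₁, eventually_ge_atTop n₂,
    eventually_ge_atTop n₃] with n e1 e2 e3 e4 e5 e6 x0 hl hu
  by_contra hV
  push Not at hV
  simp only [Function.comp] at e1 e2
  have hn1 : (1 : ℝ) ≤ n := hr₀1.trans e3
  have hn0 : (0 : ℝ) < n := by linarith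
  have hx00 : 0 < x0 := (Real.rpow_pos_of_pos hn0 _).trans_le hl
  obtain ⟨T, ρ, x, hP, hT0, hT1, hρ0, hρ1, hx6, hx1, hy, h8⟩ := hn₁ n e4 x0 hl
    (hu.trans (Real.rpow_le_rpow_of_exponent_le hn1 (by linarith))) hV
  have hLam := hn₂ n e5 T ρ x hP
  have hKap := hn₃ n e6 T ρ x hP
  have hx0 : 0 < x := hx00.trans_le hx6
  obtain ⟨R, hR⟩ : ∃ R : ℝ, R = 2 * ρ / (β ^ 2 * n) := ⟨_, rfl⟩
  rw [← hR] at hLam hKap h8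
  have hR0 : 0 < R := by rw [hR]; positivity
  have hR1 : R ≤ 1 := by
    rw [hR, div_le_one (by positivity)]
    exact hρ1
  have hr0 : 0 < √R := Real.sqrt_pos.2 hR0
  have hr2 : √R ^ 2 = R := Real.sq_sqrt hR0.le
  -- the powers of `x₀`
  have hx04 : (n : ℝ) ^ (-(2 / 3) : ℝ) ≤ x0 ^ 4 := by
    have h1 : ((n : ℝ) ^ (-(1 / 6) : ℝ)) ^ 4 ≤ x0 ^ 4 :=
      pow_le_pow_left₀ (Real.rpow_pos_of_pos hn0 _).le hl 4
    have h2 : ((n : ℝ) ^ (-(1 / 6) : ℝ)) ^ 4 = (n : ℝ) ^ (-(2 / 3) : ℝ) := by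
      rw [← Real.rpow_natCast, ← Real.rpow_mul hn0.le]
      congr 1
      push_cast
      ring
    rwa [h2] at h1
  have hx06 : (n : ℝ) ^ (-1 : ℝ) ≤ x0 ^ 6 := by
    have h1 : ((n : ℝ) ^ (-(1 / 6) : ℝ)) ^ 6 ≤ x0 ^ 6 :=
      pow_le_pow_left₀ (Real.rpow_pos_of_pos hn0 _).le hl 6
    have h2 : ((n : ℝ) ^ (-(1 / 6) : ℝ)) ^ 6 = (n : ℝ) ^ (-1 : ℝ) := by
      rw [← Real.rpow_natCast, ← Real.rpow_mul hn0.le]
      congr 1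
      push_cast
      ring
    rwa [h2] at h1
  -- the lower bound of `R T`
  have hRT : (n : ℝ) ^ (ε - 8 * α) * x0 ^ 4 ≤ R * T := by
    have h1 : x ^ 2 ≤ x0 ^ 2 * (n : ℝ) ^ (4 * α) := by
      have h2 : x ^ 2 ≤ (x0 * (n : ℝ) ^ (2 * α)) ^ 2 := pow_le_pow_left₀ hx0.le hx1 2
      have h3 : (x0 * (n : ℝ) ^ (2 * α)) ^ 2 = x0 ^ 2 * (n : ℝ) ^ (4 * α) := by
        rw [mul_pow]
        congr 1
        rw [← Real.rpow_natCast, ← Real.rpow_mul hn0.le]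
        congr 1
        push_cast
        ring
      rwa [h3] at h2
    have h2 : (n : ℝ) ^ (1 + ε - 3 * α) * x0 ^ 6 ≤ x0 ^ 2 * (n : ℝ) ^ (4 * α) * (ρ * T) := by
      refine hy.trans ?_
      rw [mul_assoc]
      exact mul_le_mul_of_nonneg_right h1 (by positivity)
    have h3 : (n : ℝ) ^ (1 + ε - 7 * α) * x0 ^ 4 ≤ ρ * T := by
      have e : (n : ℝ) ^ (1 + ε - 3 * α) * x0 ^ 6 = x0 ^ 2 * (n : ℝ) ^ (4 * α) *
          ((n : ℝ) ^ (1 + ε - 7 * α) * x0 ^ 4) := by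
        have e' : (n : ℝ) ^ (1 + ε - 3 * α) = (n : ℝ) ^ (4 * α) * (n : ℝ) ^ (1 + ε - 7 * α) := by
          rw [← Real.rpow_add hn0]
          congr 1
          ring
        rw [e']
        ring
      rw [e] at h2
      exact le_of_mul_le_mul_left h2 (mul_pos (by positivity) (Real.rpow_pos_of_pos hn0 _))
    have h4 : R * T = 2 / β ^ 2 * (ρ * T) * (n : ℝ) ^ (-1 : ℝ) := by
      rw [hR, Real.rpow_neg_one]
      field_simp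
    have h5 : (n : ℝ) ^ (ε - 8 * α) * (n : ℝ) ^ α =
        (n : ℝ) ^ (1 + ε - 7 * α) * (n : ℝ) ^ (-1 : ℝ) := by
      rw [← Real.rpow_add hn0, ← Real.rpow_add hn0]
      congr 1
      ring
    have h6 : 1 ≤ 2 / β ^ 2 * (n : ℝ) ^ α := by
      have := mul_le_mul_of_nonneg_left e1 (by positivity : 0 ≤ 2 / β ^ 2)
      have e : 2 / β ^ 2 * (β ^ 2 / 2) = 1 := by field_simp
      linarith
    have h7 : 0 < (n : ℝ) ^ (ε - 8 * α) := Real.rpow_pos_of_pos hn0 _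
    have h9 : 0 < (n : ℝ) ^ (-1 : ℝ) := Real.rpow_pos_of_pos hn0 _
    calc (n : ℝ) ^ (ε - 8 * α) * x0 ^ 4 ≤
          ((n : ℝ) ^ (ε - 8 * α) * x0 ^ 4) * (2 / β ^ 2 * (n : ℝ) ^ α) :=
          le_mul_of_one_le_right (by positivity) h6
      _ = 2 / β ^ 2 * ((n : ℝ) ^ (ε - 8 * α) * (n : ℝ) ^ α) * x0 ^ 4 := by ring
      _ = 2 / β ^ 2 * ((n : ℝ) ^ (1 + ε - 7 * α) * (n : ℝ) ^ (-1 : ℝ)) * x0 ^ 4 := by rw [h5]
      _ = 2 / β ^ 2 * (((n : ℝ) ^ (1 + ε - 7 * α) * x0 ^ 4) * (n : ℝ) ^ (-1 : ℝ)) := by ring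
      _ ≤ 2 / β ^ 2 * ((ρ * T) * (n : ℝ) ^ (-1 : ℝ)) := by gcongr
      _ = R * T := by rw [h4]; ring
  have hTlow : (n : ℝ) ^ (-(2 / 3) + (ε - 8 * α) : ℝ) ≤ T := by
    calc (n : ℝ) ^ (-(2 / 3) + (ε - 8 * α) : ℝ) =
          (n : ℝ) ^ (ε - 8 * α) * (n : ℝ) ^ (-(2 / 3) : ℝ) := by
          rw [← Real.rpow_add hn0]; congr 1; ring
      _ ≤ (n : ℝ) ^ (ε - 8 * α) * x0 ^ 4 := by gcongr
      _ ≤ R * T := hRT
      _ ≤ T := mul_le_of_le_one_left hT0.le hR1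
  have hpow : ∀ m : ℕ, (m : ℝ) ≤ M → ((n : ℝ) ^ α) ^ m ≤ (n : ℝ) ^ a := by
    intro m hm
    rw [← Real.rpow_natCast, ← Real.rpow_mul hn0.le]
    refine Real.rpow_le_rpow_of_exponent_le hn1 ?_
    exact (mul_le_mul_of_nonneg_left hm hα0.le).trans hαM
  have hC : ∀ (C : ℝ) (m : ℕ), C ≤ |C₁| + |C₂| → (m : ℝ) ≤ M → ∀ X : ℝ, 0 ≤ X →
      C * ((n : ℝ) ^ α) ^ m * X ≤ (|C₁| + |C₂|) * (n : ℝ) ^ a * X := by
    intro C m hC hm X hX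
    have h1 : 0 ≤ ((n : ℝ) ^ α) ^ m := by positivity
    have h2 : C * ((n : ℝ) ^ α) ^ m ≤ (|C₁| + |C₂|) * ((n : ℝ) ^ α) ^ m :=
      mul_le_mul_of_nonneg_right hC h1
    have h3 : (|C₁| + |C₂|) * ((n : ℝ) ^ α) ^ m ≤ (|C₁| + |C₂|) * (n : ℝ) ^ a :=
      mul_le_mul_of_nonneg_left (hpow m hm) (by positivity)
    exact mul_le_mul_of_nonneg_right (h2.trans h3) hX
  have hC1 : C₁ ≤ |C₁| + |C₂| := (le_abs_self _).trans (le_add_of_nonneg_right (abs_nonneg _))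
  have hC2 : C₂ ≤ |C₁| + |C₂| := (le_abs_self _).trans (le_add_of_nonneg_left (abs_nonneg _))
  refine hr₀ n e3 T (√R) x x0 hT0 hT1 hr0 hx0.le hl hu (hx1.trans
    (mul_le_mul_of_nonneg_left (Real.rpow_le_rpow_of_exponent_le hn1 (by linarith)) hx00.le))
    (by rw [hr2]; exact hRT) ?_ (fun hTc hxr => ?_) (fun hTc => ?_)
  · rw [hr2]
    exact hLam.trans (hC C₁ m₁ hC1 (by rw [hM]; linarith) _ (by positivity))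
  · rw [hr2]
    have hT1' : T ≤ 1 / (n : ℝ) ^ α := by
      refine hTc.trans ?_
      have e : 1 / (n : ℝ) ^ α = (n : ℝ) ^ (-α) := by
        rw [Real.rpow_neg hn0.le, one_div]
      rw [e]
      exact Real.rpow_le_rpow_of_exponent_le hn1 (by linarith)
    -- the small factor
    have hS : (1 / (x ^ 2 * ρ * T) + 1 / (n * T)) ^ k + x ^ k ≤ (n : ℝ) ^ (-(k * ε / 4)) := by
      have s1 : 1 / (x ^ 2 * ρ * T) ≤ (n : ℝ) ^ (-(ε / 2)) := by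
        have h1 : (n : ℝ) ^ (ε / 2) ≤ x ^ 2 * ρ * T := by
          refine le_trans ?_ hy
          calc (n : ℝ) ^ (ε / 2) ≤ (n : ℝ) ^ (1 + ε - 3 * α + -1 : ℝ) :=
                Real.rpow_le_rpow_of_exponent_le hn1 (by linarith)
            _ = (n : ℝ) ^ (1 + ε - 3 * α) * (n : ℝ) ^ (-1 : ℝ) := Real.rpow_add hn0 _ _
            _ ≤ (n : ℝ) ^ (1 + ε - 3 * α) * x0 ^ 6 := by gcongr
        rw [Real.rpow_neg hn0.le, ← one_div]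
        exact one_div_le_one_div_of_le (Real.rpow_pos_of_pos hn0 _) h1
      have s2 : 1 / (n * T) ≤ (n : ℝ) ^ (-(ε / 2)) := by
        have h1 : (n : ℝ) ^ (ε / 2) ≤ n * T := by
          calc (n : ℝ) ^ (ε / 2) ≤ (n : ℝ) ^ (1 + (-(2 / 3) + (ε - 8 * α)) : ℝ) :=
                Real.rpow_le_rpow_of_exponent_le hn1 (by linarith)
            _ = n * (n : ℝ) ^ (-(2 / 3) + (ε - 8 * α) : ℝ) := by
                rw [Real.rpow_add hn0, Real.rpow_one]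
            _ ≤ n * T := mul_le_mul_of_nonneg_left hTlow hn0.le
        rw [Real.rpow_neg hn0.le, ← one_div]
        exact one_div_le_one_div_of_le (Real.rpow_pos_of_pos hn0 _) h1
      have s3 : x ≤ (n : ℝ) ^ (-(ε / 2)) := by
        refine hx1.trans ?_
        calc x0 * (n : ℝ) ^ (2 * α) ≤ (n : ℝ) ^ b₀ * (n : ℝ) ^ (2 * α) := by gcongr
          _ = (n : ℝ) ^ (b₀ + 2 * α) := (Real.rpow_add hn0 _ _).symm
          _ ≤ (n : ℝ) ^ (-(ε / 2)) := Real.rpow_le_rpow_of_exponent_le hn1 (by linarith)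
      have s4 : 0 ≤ (n : ℝ) ^ (-(ε / 2)) := (Real.rpow_pos_of_pos hn0 _).le
      have s5 : (1 / (x ^ 2 * ρ * T) + 1 / (n * T)) ^ k ≤ (2 * (n : ℝ) ^ (-(ε / 2))) ^ k :=
        Real.rpow_le_rpow (by positivity) (by linarith) hk.le
      have s6 : x ^ k ≤ ((n : ℝ) ^ (-(ε / 2))) ^ k := Real.rpow_le_rpow hx0.le s3 hk.le
      have s7 : ((n : ℝ) ^ (-(ε / 2))) ^ k = (n : ℝ) ^ (-(k * ε / 4)) *
          (n : ℝ) ^ (-(k * ε / 4)) := by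
        rw [← Real.rpow_mul hn0.le, ← Real.rpow_add hn0]
        congr 1
        ring
      rw [Real.mul_rpow (by norm_num) s4] at s5
      rw [s7] at s5 s6
      have s8 : (2 ^ k + 1) * (n : ℝ) ^ (-(k * ε / 4)) ≤ 1 := by
        have h1 : 0 < (n : ℝ) ^ (-(k * ε / 4)) := Real.rpow_pos_of_pos hn0 _
        have h2 := mul_le_mul_of_nonneg_right e2 h1.le
        have h3 : (n : ℝ) ^ (k * ε / 4) * (n : ℝ) ^ (-(k * ε / 4)) = 1 := by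
          rw [← Real.rpow_add hn0]
          simp
        linarith
      have s9 : 0 ≤ (n : ℝ) ^ (-(k * ε / 4)) := (Real.rpow_pos_of_pos hn0 _).le
      calc (1 / (x ^ 2 * ρ * T) + 1 / (n * T)) ^ k + x ^ k ≤
            2 ^ k * ((n : ℝ) ^ (-(k * ε / 4)) * (n : ℝ) ^ (-(k * ε / 4))) +
              (n : ℝ) ^ (-(k * ε / 4)) * (n : ℝ) ^ (-(k * ε / 4)) := add_le_add s5 s6
        _ = (n : ℝ) ^ (-(k * ε / 4)) * ((2 ^ k + 1) * (n : ℝ) ^ (-(k * ε / 4))) := by ring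
        _ ≤ (n : ℝ) ^ (-(k * ε / 4)) * 1 := mul_le_mul_of_nonneg_left s8 s9
        _ = (n : ℝ) ^ (-(k * ε / 4)) := mul_one _
    have hX0 : 0 ≤ √(1 / (n * T)) + x * √R + ((1 / (x ^ 2 * ρ * T) + 1 / (n * T)) ^ k +
        x ^ k) * R + 1 / n := by positivity
    have hxr' : (n : ℝ) ^ c * x ≤ √R := by
      refine le_trans ?_ hxr
      calc (n : ℝ) ^ c * x ≤ (n : ℝ) ^ c * (x0 * (n : ℝ) ^ (2 * α)) := by gcongr
        _ = (n : ℝ) ^ (c + 2 * α) * x0 := by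
            rw [Real.rpow_add hn0]; ring
    refine (hKap hT1' hxr').trans ((hC C₂ m₂ hC2 (by rw [hM]; linarith) _ hX0).trans ?_)
    refine mul_le_mul_of_nonneg_left ?_ (by positivity)
    have := mul_le_mul_of_nonneg_right hS hR0.le
    linarith
  · rw [hr2]
    exact h8 hTc

/-- **The end of the contradiction at all scales, scale parameter `κ`.** The system `P κ` may
depend on `κ`, used for `n ^ (-1/6 + κ) ≤ x₀ ≤ n ^ (-1/6 + κ + α)`; the constants of `hL`, `hK` do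
not depend on `κ ∈ [0, K]`, the thresholds `n₀` may. -/
theorem core_kap {β b₀ b₁ K : ℝ} (hβ : β ≠ 0) (hb : b₀ < b₁) (hb1 : b₁ ≤ 0)
    (hKb : b₁ + 1 / 6 ≤ K) {V : ℕ → ℝ → ℝ} {P : ℝ → ℝ → ℕ → ℝ → ℝ → ℝ → ℝ → Prop}
    (hF : ∀ κ : ℝ, 0 ≤ κ → κ ≤ K →
      ∀ ε α c : ℝ, 0 < α → 100 * α ≤ c → 8 * c = ε → ε ≤ 1 / 10 → ∃ n₀ : ℕ, ∀ n : ℕ,
      n₀ ≤ n → ∀ x0 : ℝ, (n : ℝ) ^ (-(1 / 6) + κ : ℝ) ≤ x0 →
        x0 ≤ (n : ℝ) ^ (-(1 / 6) + κ + α : ℝ) →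
        (n : ℝ) ^ (1 + ε : ℝ) * x0 ^ 4 ≤ V n x0 → ∃ T ρ x : ℝ, P κ c n ((n : ℝ) ^ α) T ρ x ∧
        0 < T ∧ T ≤ 1 ∧ 0 < ρ ∧ 2 * ρ ≤ β ^ 2 * n ∧ x0 ≤ x ∧
        x ≤ x0 * (n : ℝ) ^ (2 * α) ∧ (n : ℝ) ^ (1 + ε - 3 * α) * x0 ^ 6 ≤ x ^ 2 * ρ * T ∧
        ((n : ℝ) ^ (-(1 / 100) : ℝ) ≤ T → 2 * ρ / (β ^ 2 * n) ≤ (n : ℝ) ^ (-(1 / 50) : ℝ)))
    (hL : ∀ c : ℝ, 0 < c → ∃ C : ℝ, ∃ m : ℕ, ∃ α₀ : ℝ, 0 < α₀ ∧ ∀ κ : ℝ, 0 ≤ κ → κ ≤ K →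
      ∀ α : ℝ, 0 < α → α ≤ α₀ →
      ∃ n₀ : ℕ, ∀ n : ℕ, n₀ ≤ n → ∀ T ρ x : ℝ,
      P κ c n ((n : ℝ) ^ α) T ρ x → T ≤ C * ((n : ℝ) ^ α) ^ m * (√(1 / (n * T)) +
        x * √(2 * ρ / (β ^ 2 * n)) + 2 * ρ / (β ^ 2 * n) + 1 / n))
    (hK : ∀ c : ℝ, 0 < c → ∃ C : ℝ, ∃ m : ℕ, ∃ k α₀ : ℝ, 0 < k ∧ 0 < α₀ ∧ ∀ κ : ℝ, 0 ≤ κ →
      κ ≤ K → ∀ α : ℝ, 0 < α →
      α ≤ α₀ → ∃ n₀ : ℕ, ∀ n : ℕ, n₀ ≤ n → ∀ T ρ x : ℝ, P κ c n ((n : ℝ) ^ α) T ρ x →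
      T ≤ 1 / (n : ℝ) ^ α → (n : ℝ) ^ c * x ≤ √(2 * ρ / (β ^ 2 * n)) →
      2 * ρ / (β ^ 2 * n) ≤ C * ((n : ℝ) ^ α) ^ m * (√(1 / (n * T)) +
        x * √(2 * ρ / (β ^ 2 * n)) + ((1 / (x ^ 2 * ρ * T) + 1 / (n * T)) ^ k + x ^ k) *
          (2 * ρ / (β ^ 2 * n)) + 1 / n)) :
    ∀ ε : ℝ, 0 < ε → ∀ᶠ n : ℕ in atTop, ∀ x0 : ℝ, (n : ℝ) ^ (-(1 / 6) : ℝ) ≤ x0 →
      x0 ≤ (n : ℝ) ^ b₀ → V n x0 < (n : ℝ) ^ (1 + ε : ℝ) * x0 ^ 4 := by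
  -- a threshold for all points of a finite grid
  have grid : ∀ (α : ℝ), 0 < α → ∀ (Q : ℝ → ℕ → Prop),
      (∀ κ : ℝ, 0 ≤ κ → κ ≤ K → ∃ n₀ : ℕ, ∀ n : ℕ, n₀ ≤ n → Q κ n) →
      ∃ n₀ : ℕ, 2 ≤ n₀ ∧ ∀ n : ℕ, n₀ ≤ n → ∀ j : ℕ, (j : ℝ) * α ≤ K → Q (j * α) n := by
    intro α hα Q hQ
    have h1 : ∀ j : ℕ, ∃ n₀ : ℕ, ∀ n : ℕ, n₀ ≤ n → (j : ℝ) * α ≤ K → Q (j * α) n := by
      intro j
      by_cases hj : (j : ℝ) * α ≤ K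
      · obtain ⟨n₀, h⟩ := hQ (j * α) (by positivity) hj
        exact ⟨n₀, fun n hn _ => h n hn⟩
      · exact ⟨0, fun n _ h => absurd h hj⟩
    choose f hf using h1
    refine ⟨max 2 ((Finset.range (⌊K / α⌋₊ + 1)).sup f), le_max_left _ _, fun n hn j hj => ?_⟩
    refine hf j n (le_trans (Finset.le_sup (f := f) ?_) ((le_max_right _ _).trans hn)) hj
    rw [Finset.mem_range, Nat.lt_succ_iff]
    exact Nat.le_floor ((le_div_iff₀ hα).2 hj)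
  have hlog : ∀ (n : ℕ) (α : ℝ), 2 ≤ n → Real.logb n ((n : ℝ) ^ α) = α := by
    intro n α hn
    have hn' : (2 : ℝ) ≤ n := by exact_mod_cast hn
    exact Real.logb_rpow (by linarith) (by linarith)
  refine core_at hβ hb hb1 (V := V) (P := fun c n A T ρ x => ∃ j : ℕ,
    (j : ℝ) * Real.logb n A ≤ K ∧ P (j * Real.logb n A) c n A T ρ x) ?_ ?_ ?_
  · intro ε α c hα hαc hc hε
    obtain ⟨n₀, h2, h⟩ := grid α hα (fun κ n => ∀ x0 : ℝ, (n : ℝ) ^ (-(1 / 6) + κ : ℝ) ≤ x0 →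
        x0 ≤ (n : ℝ) ^ (-(1 / 6) + κ + α : ℝ) →
        (n : ℝ) ^ (1 + ε : ℝ) * x0 ^ 4 ≤ V n x0 → ∃ T ρ x : ℝ, P κ c n ((n : ℝ) ^ α) T ρ x ∧
        0 < T ∧ T ≤ 1 ∧ 0 < ρ ∧ 2 * ρ ≤ β ^ 2 * n ∧ x0 ≤ x ∧
        x ≤ x0 * (n : ℝ) ^ (2 * α) ∧ (n : ℝ) ^ (1 + ε - 3 * α) * x0 ^ 6 ≤ x ^ 2 * ρ * T ∧
        ((n : ℝ) ^ (-(1 / 100) : ℝ) ≤ T → 2 * ρ / (β ^ 2 * n) ≤ (n : ℝ) ^ (-(1 / 50) : ℝ)))
      (fun κ h0 h1 => hF κ h0 h1 ε α c hα hαc hc hε)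
    refine ⟨n₀, fun n hn x0 hl hu hV => ?_⟩
    have hn2 : 2 ≤ n := h2.trans hn
    have hn2' : (2 : ℝ) ≤ n := by exact_mod_cast hn2
    have hn1 : (1 : ℝ) < n := by linarith
    have hn0 : (0 : ℝ) < n := by linarith
    have hx00 : 0 < x0 := (Real.rpow_pos_of_pos hn0 _).trans_le hl
    obtain ⟨ξ, hξ⟩ : ∃ ξ : ℝ, (n : ℝ) ^ ξ = x0 :=
      ⟨Real.logb n x0, Real.rpow_logb hn0 hn1.ne' hx00⟩
    have hle : ∀ {p q : ℝ}, (n : ℝ) ^ p ≤ (n : ℝ) ^ q ↔ p ≤ q :=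
      fun {p q} => Real.rpow_le_rpow_left_iff hn1
    rw [← hξ] at hl hu
    have hξ1 := hle.1 hl
    have hξ2 := hle.1 hu
    obtain ⟨j, hj⟩ : ∃ j : ℕ, j = ⌊(ξ + 1 / 6) / α⌋₊ := ⟨_, rfl⟩
    have hj1 : (j : ℝ) * α ≤ ξ + 1 / 6 := by
      rw [← le_div_iff₀ hα, hj]
      exact Nat.floor_le (div_nonneg (by linarith) hα.le)
    have hj2 : ξ + 1 / 6 < (j + 1) * α := by
      rw [← div_lt_iff₀ hα, hj]
      exact Nat.lt_floor_add_one _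
    have hjK : (j : ℝ) * α ≤ K := by linarith
    obtain ⟨T, ρ, x, hP, hr⟩ := h n hn j hjK x0 (by rw [← hξ]; exact hle.2 (by linarith))
      (by rw [← hξ]; exact hle.2 (by linarith)) hV
    refine ⟨T, ρ, x, ⟨j, ?_, ?_⟩, hr⟩
    · rw [hlog n α hn2]; exact hjK
    · rw [hlog n α hn2]; exact hP
  · intro c hc
    obtain ⟨C, m, α₀, h0, H⟩ := hL c hc
    refine ⟨C, m, α₀, h0, fun α hα hα₀ => ?_⟩
    obtain ⟨n₀, h2, h⟩ := grid α hα (fun κ n => ∀ T ρ x : ℝ,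
      P κ c n ((n : ℝ) ^ α) T ρ x → T ≤ C * ((n : ℝ) ^ α) ^ m * (√(1 / (n * T)) +
        x * √(2 * ρ / (β ^ 2 * n)) + 2 * ρ / (β ^ 2 * n) + 1 / n))
      (fun κ k0 k1 => H κ k0 k1 α hα hα₀)
    refine ⟨n₀, fun n hn T ρ x hP => ?_⟩
    obtain ⟨j, hjK, hP⟩ := hP
    rw [hlog n α (h2.trans hn)] at hjK hP
    exact h n hn j hjK T ρ x hP
  · intro c hc
    obtain ⟨C, m, k, α₀, hk, h0, H⟩ := hK c hc
    refine ⟨C, m, k, α₀, hk, h0, fun α hα hα₀ => ?_⟩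
    obtain ⟨n₀, h2, h⟩ := grid α hα (fun κ n => ∀ T ρ x : ℝ, P κ c n ((n : ℝ) ^ α) T ρ x →
      T ≤ 1 / (n : ℝ) ^ α → (n : ℝ) ^ c * x ≤ √(2 * ρ / (β ^ 2 * n)) →
      2 * ρ / (β ^ 2 * n) ≤ C * ((n : ℝ) ^ α) ^ m * (√(1 / (n * T)) +
        x * √(2 * ρ / (β ^ 2 * n)) + ((1 / (x ^ 2 * ρ * T) + 1 / (n * T)) ^ k + x ^ k) *
          (2 * ρ / (β ^ 2 * n)) + 1 / n))
      (fun κ k0 k1 => H κ k0 k1 α hα hα₀)
    refine ⟨n₀, fun n hn T ρ x hP => ?_⟩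
    obtain ⟨j, hjK, hP⟩ := hP
    rw [hlog n α (h2.trans hn)] at hjK hP
    exact h n hn j hjK T ρ x hP

end Vale.Agent.P146.H695
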