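import Vale.Agent.P146.H695.Dens

/-!
# The limit of laws whose Gumbel perturbations have log-concave interval probabilities
-/

open MeasureTheory Set Filter Topology
open scoped ENNReal NNReal

namespace Vale.Agent.P146.H695

/-- The smoothed distribution function `∫ exp (-exp (s (y - b))) dν`. -/
noncomputable def G (ν : ProbabilityMeasure ℝ) (s b : ℝ) : ℝ :=
  ∫ y, Real.exp (-Real.exp (s * (y - b))) ∂(ν : Measure ℝ)

/-- A continuous cut: `1` before `a`, `0` after `a + d`. -/
noncomputable def cut (a d : ℝ) (y : ℝ) : ℝ := max 0 (min 1 ((a + d - y) / d))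

lemma cut_nonneg (a d y : ℝ) : 0 ≤ cut a d y := le_max_left _ _

lemma cut_le_one (a d y : ℝ) : cut a d y ≤ 1 := max_le zero_le_one (min_le_left _ _)

lemma cut_one {a d y : ℝ} (hd : 0 < d) (h : y ≤ a) : cut a d y = 1 := by
  have : 1 ≤ (a + d - y) / d := by rw [le_div_iff₀ hd]; linarith
  rw [cut, min_eq_left this, max_eq_right zero_le_one]

lemma cut_zero {a d y : ℝ} (hd : 0 < d) (h : a + d ≤ y) : cut a d y = 0 := by
  have : (a + d - y) / d ≤ 0 := div_nonpos_of_nonpos_of_nonneg (by linarith) hd.le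
  rw [cut, min_eq_right (this.trans zero_le_one), max_eq_left this]

lemma cut_cont (a d : ℝ) : Continuous (cut a d) := by unfold cut; fun_prop

/-- the cut as a bounded continuous function -/
noncomputable def cutB (a d : ℝ) : BoundedContinuousFunction ℝ ℝ :=
  BoundedContinuousFunction.ofNormedAddCommGroup (cut a d) (cut_cont a d) 1 fun y => by
    rw [Real.norm_of_nonneg (cut_nonneg a d y)]
    exact cut_le_one a d y

lemma cutB_apply (a d y : ℝ) : cutB a d y = cut a d y := rfl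

lemma cut_int (ν : ProbabilityMeasure ℝ) (a d : ℝ) : Integrable (cut a d) (ν : Measure ℝ) :=
  (cutB a d).integrable (ν : Measure ℝ)

lemma cut_tendsto {ν : ℕ → ProbabilityMeasure ℝ} {μ : ProbabilityMeasure ℝ}
    (hν : Tendsto ν atTop (𝓝 μ)) (a d : ℝ) :
    Tendsto (fun k => ∫ y, cut a d y ∂(ν k : Measure ℝ)) atTop
      (𝓝 (∫ y, cut a d y ∂(μ : Measure ℝ))) :=
  (ProbabilityMeasure.tendsto_iff_forall_integral_tendsto.1 hν) (cutB a d)

lemma ind_int (ν : ProbabilityMeasure ℝ) (a : ℝ) :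
    Integrable ((Iic a).indicator fun _ => (1 : ℝ)) (ν : Measure ℝ) :=
  (integrable_const _).indicator measurableSet_Iic

lemma cut_int_le (μ : ProbabilityMeasure ℝ) {a d : ℝ} (hd : 0 < d) :
    ∫ y, cut a d y ∂(μ : Measure ℝ) ≤ (μ : Measure ℝ).real (Iic (a + d)) := by
  have h1 : (μ : Measure ℝ).real (Iic (a + d)) =
      ∫ y, (Iic (a + d)).indicator (fun _ => (1 : ℝ)) y ∂(μ : Measure ℝ) := by
    rw [integral_indicator_const _ measurableSet_Iic]; simp
  rw [h1]
  refine integral_mono (cut_int μ a d) (ind_int μ _) fun y => ?_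
  by_cases h : y ≤ a + d
  · rw [indicator_of_mem (show y ∈ Iic (a + d) from h)]
    exact cut_le_one a d y
  · rw [indicator_of_notMem (show y ∉ Iic (a + d) from h), cut_zero hd (not_le.1 h).le]

lemma le_cut_int (μ : ProbabilityMeasure ℝ) {a d : ℝ} (hd : 0 < d) :
    (μ : Measure ℝ).real (Iic a) ≤ ∫ y, cut a d y ∂(μ : Measure ℝ) := by
  have h1 : (μ : Measure ℝ).real (Iic a) =
      ∫ y, (Iic a).indicator (fun _ => (1 : ℝ)) y ∂(μ : Measure ℝ) := by
    rw [integral_indicator_const _ measurableSet_Iic]; simp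
  rw [h1]
  refine integral_mono (ind_int μ _) (cut_int μ a d) fun y => ?_
  by_cases h : y ≤ a
  · rw [indicator_of_mem (show y ∈ Iic a from h), cut_one hd h]
  · rw [indicator_of_notMem (show y ∉ Iic a from h)]
    exact cut_nonneg a d y

lemma G_int (ν : ProbabilityMeasure ℝ) (s b : ℝ) :
    Integrable (fun y => Real.exp (-Real.exp (s * (y - b)))) (ν : Measure ℝ) := by
  refine Integrable.of_bound (C := 1) (by fun_prop) (Eventually.of_forall fun y => ?_)
  rw [Real.norm_of_nonneg (Real.exp_pos _).le]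
  exact Real.exp_le_one_iff.2 (by have := Real.exp_pos (s * (y - b)); linarith)

/-- Upper bound of the smoothed distribution function. -/
lemma G_le (ν : ProbabilityMeasure ℝ) {s b d : ℝ} (hs : 0 ≤ s) (hd : 0 < d) :
    G ν s b ≤ (∫ y, cut (b + d) d y ∂(ν : Measure ℝ)) + Real.exp (-Real.exp (s * d)) := by
  have h1 : ∫ y, (cut (b + d) d y + Real.exp (-Real.exp (s * d))) ∂(ν : Measure ℝ) =
      (∫ y, cut (b + d) d y ∂(ν : Measure ℝ)) + Real.exp (-Real.exp (s * d)) := by
    rw [integral_add (cut_int ν _ _) (integrable_const _)]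
    simp
  rw [← h1]
  refine integral_mono (G_int ν s b) ((cut_int ν _ _).add (integrable_const _)) fun y => ?_
  simp only
  rcases le_total y (b + d) with h | h
  · rw [cut_one hd h]
    have h2 : Real.exp (-Real.exp (s * (y - b))) ≤ 1 :=
      Real.exp_le_one_iff.2 (by have := Real.exp_pos (s * (y - b)); linarith)
    have h3 := Real.exp_pos (-Real.exp (s * d))
    linarith
  · have h2 : Real.exp (s * d) ≤ Real.exp (s * (y - b)) :=
      Real.exp_le_exp.2 (mul_le_mul_of_nonneg_left (by linarith) hs)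
    have h3 : Real.exp (-Real.exp (s * (y - b))) ≤ Real.exp (-Real.exp (s * d)) :=
      Real.exp_le_exp.2 (by linarith)
    have h4 := cut_nonneg (b + d) d y
    linarith

/-- Lower bound of the smoothed distribution function. -/
lemma le_G (ν : ProbabilityMeasure ℝ) {s b d : ℝ} (hs : 0 ≤ s) (hd : 0 < d) :
    Real.exp (-Real.exp (-(s * d))) * (∫ y, cut (b - 2 * d) d y ∂(ν : Measure ℝ)) ≤ G ν s b := by
  rw [← integral_const_mul]
  refine integral_mono ((cut_int ν _ _).const_mul _) (G_int ν s b) fun y => ?_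
  simp only
  rcases le_total (b - d) y with h | h
  · rw [cut_zero hd (by linarith), mul_zero]
    exact (Real.exp_pos _).le
  · have h2 : Real.exp (s * (y - b)) ≤ Real.exp (-(s * d)) :=
      Real.exp_le_exp.2 (by nlinarith)
    have h3 : Real.exp (-Real.exp (-(s * d))) ≤ Real.exp (-Real.exp (s * (y - b))) :=
      Real.exp_le_exp.2 (by linarith)
    calc Real.exp (-Real.exp (-(s * d))) * cut (b - 2 * d) d y
        ≤ Real.exp (-Real.exp (-(s * d))) * 1 :=
          mul_le_mul_of_nonneg_left (cut_le_one _ _ _) (Real.exp_pos _).le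
      _ ≤ _ := by rw [mul_one]; exact h3

section limit

variable {ν : ℕ → ProbabilityMeasure ℝ} {μ : ProbabilityMeasure ℝ} {s : ℕ → ℝ}

lemma G_up (hν : Tendsto ν atTop (𝓝 μ)) (hs : Tendsto s atTop atTop) (b : ℝ) {d ε : ℝ}
    (hd : 0 < d) (hε : 0 < ε) :
    ∀ᶠ k in atTop, G (ν k) (s k) b ≤ (μ : Measure ℝ).real (Iic (b + 2 * d)) + ε := by
  have h1 : Tendsto (fun k => (∫ y, cut (b + d) d y ∂(ν k : Measure ℝ)) +
      Real.exp (-Real.exp (s k * d))) atTop (𝓝 ((∫ y, cut (b + d) d y ∂(μ : Measure ℝ)) + 0)) := by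
    refine (cut_tendsto hν _ _).add ?_
    exact Real.tendsto_exp_neg_atTop_nhds_zero.comp
      (Real.tendsto_exp_atTop.comp (hs.atTop_mul_const hd))
  have h2 := cut_int_le μ (a := b + d) hd
  have h3 : (∫ y, cut (b + d) d y ∂(μ : Measure ℝ)) + 0 <
      (μ : Measure ℝ).real (Iic (b + 2 * d)) + ε := by
    rw [show b + d + d = b + 2 * d by ring] at h2
    linarith
  filter_upwards [h1.eventually_lt_const h3, hs.eventually_ge_atTop 0] with k h4 h5
  exact (G_le (ν k) h5 hd).trans h4.le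

lemma G_down (hν : Tendsto ν atTop (𝓝 μ)) (hs : Tendsto s atTop atTop) (b : ℝ) {d ε : ℝ}
    (hd : 0 < d) (hε : 0 < ε) :
    ∀ᶠ k in atTop, (μ : Measure ℝ).real (Iic (b - 2 * d)) - ε ≤ G (ν k) (s k) b := by
  have h1 : Tendsto (fun k => Real.exp (-Real.exp (-(s k * d))) *
      (∫ y, cut (b - 2 * d) d y ∂(ν k : Measure ℝ))) atTop
      (𝓝 (1 * ∫ y, cut (b - 2 * d) d y ∂(μ : Measure ℝ))) := by
    refine Tendsto.mul ?_ (cut_tendsto hν _ _)
    have h2 : Tendsto (fun k => Real.exp (-(s k * d))) atTop (𝓝 0) :=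
      Real.tendsto_exp_neg_atTop_nhds_zero.comp (hs.atTop_mul_const hd)
    have h3 := (Real.continuous_exp.tendsto _).comp h2.neg
    simpa using! h3
  have h2 := le_cut_int μ (a := b - 2 * d) hd
  have h3 : (μ : Measure ℝ).real (Iic (b - 2 * d)) - ε <
      1 * ∫ y, cut (b - 2 * d) d y ∂(μ : Measure ℝ) := by
    linarith
  filter_upwards [h1.eventually_const_lt h3, hs.eventually_ge_atTop 0] with k h4 h5
  exact h4.le.trans (le_G (ν k) h5 hd)

/-- The limit law has a Lipschitz distribution function. -/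
lemma lip (hν : Tendsto ν atTop (𝓝 μ)) (hs : Tendsto s atTop atTop) {C : ℝ≥0}
    (hL : ∀ᶠ k in atTop, ∀ a b : ℝ, a ≤ b →
      G (ν k) (s k) b - G (ν k) (s k) a ≤ C * (b - a)) {a b : ℝ} (hab : a ≤ b) :
    (μ : Measure ℝ).real (Iic b) - (μ : Measure ℝ).real (Iic a) ≤ C * (b - a) := by
  refine le_of_forall_pos_le_add fun ε hε => ?_
  obtain ⟨d, hd0, hd⟩ : ∃ d : ℝ, 0 < d ∧ C * (4 * d) ≤ ε / 3 := by
    refine ⟨ε / (12 * (C + 1)), by positivity, ?_⟩
    have hC : (0 : ℝ) ≤ C := C.coe_nonneg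
    rw [show (C : ℝ) * (4 * (ε / (12 * (C + 1)))) = (ε / 3) * (C / (C + 1)) by field_simp; ring]
    have : (C : ℝ) / (C + 1) ≤ 1 := by rw [div_le_one (by positivity)]; linarith
    nlinarith
  have h1 := G_down hν hs (b + 2 * d) hd0 (show 0 < ε / 3 by positivity)
  have h2 := G_up hν hs (a - 2 * d) hd0 (show 0 < ε / 3 by positivity)
  obtain ⟨k, h3, h4, h5⟩ := (hL.and (h1.and h2)).exists
  have h6 := h3 (a - 2 * d) (b + 2 * d) (by linarith)
  rw [show b + 2 * d - 2 * d = b by ring] at h4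
  rw [show a - 2 * d + 2 * d = a by ring] at h5
  nlinarith

/-- The smoothed distribution functions converge. -/
lemma G_tendsto (hν : Tendsto ν atTop (𝓝 μ)) (hs : Tendsto s atTop atTop) {C : ℝ≥0}
    (hL : ∀ᶠ k in atTop, ∀ a b : ℝ, a ≤ b →
      G (ν k) (s k) b - G (ν k) (s k) a ≤ C * (b - a)) (b : ℝ) :
    Tendsto (fun k => G (ν k) (s k) b) atTop (𝓝 ((μ : Measure ℝ).real (Iic b))) := by
  rw [Metric.tendsto_nhds]
  intro ε hε
  obtain ⟨d, hd0, hd⟩ : ∃ d : ℝ, 0 < d ∧ C * (2 * d) ≤ ε / 3 := by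
    refine ⟨ε / (6 * (C + 1)), by positivity, ?_⟩
    have hC : (0 : ℝ) ≤ C := C.coe_nonneg
    rw [show (C : ℝ) * (2 * (ε / (6 * (C + 1)))) = (ε / 3) * (C / (C + 1)) by field_simp; ring]
    have : (C : ℝ) / (C + 1) ≤ 1 := by rw [div_le_one (by positivity)]; linarith
    nlinarith
  have h1 := lip hν hs hL (show b ≤ b + 2 * d by linarith)
  have h2 := lip hν hs hL (show b - 2 * d ≤ b by linarith)
  filter_upwards [G_down hν hs b hd0 (show 0 < ε / 3 by positivity),
    G_up hν hs b hd0 (show 0 < ε / 3 by positivity)] with k h3 h4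
  rw [Real.dist_eq, abs_lt]
  have e1 : b + 2 * d - b = 2 * d := by ring
  have e2 : b - (b - 2 * d) = 2 * d := by ring
  rw [e1] at h1
  rw [e2] at h2
  constructor <;> linarith

lemma ball_eq (hν : Tendsto ν atTop (𝓝 μ)) (hs : Tendsto s atTop atTop) {C : ℝ≥0}
    (hL : ∀ᶠ k in atTop, ∀ a b : ℝ, a ≤ b →
      G (ν k) (s k) b - G (ν k) (s k) a ≤ C * (b - a)) (x : ℝ) {h : ℝ} (hh : 0 ≤ h) :
    (μ : Measure ℝ).real (Metric.closedBall x h) =
      (μ : Measure ℝ).real (Iic (x + h)) - (μ : Measure ℝ).real (Iic (x - h)) := by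
  have h0 : ∀ y : ℝ, (μ : Measure ℝ).real {y} = 0 := by
    intro y
    refine le_antisymm (le_of_forall_pos_le_add fun ε hε => ?_) measureReal_nonneg
    obtain ⟨d, hd0, hd⟩ : ∃ d : ℝ, 0 < d ∧ C * d ≤ ε := by
      refine ⟨ε / (C + 1), by positivity, ?_⟩
      have hC : (0 : ℝ) ≤ C := C.coe_nonneg
      rw [show (C : ℝ) * (ε / (C + 1)) = ε * (C / (C + 1)) by field_simp]
      have : (C : ℝ) / (C + 1) ≤ 1 := by rw [div_le_one (by positivity)]; linarith
      nlinarith
    have h1 := lip hν hs hL (show y - d ≤ y by linarith)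
    have h2 : (μ : Measure ℝ).real {y} + (μ : Measure ℝ).real (Iic (y - d)) ≤
        (μ : Measure ℝ).real (Iic y) := by
      rw [← measureReal_union (by
        rw [disjoint_singleton_left, mem_Iic]; linarith) measurableSet_Iic]
      refine measureReal_mono ?_
      rw [union_subset_iff]
      exact ⟨by simp, Iic_subset_Iic.2 (by linarith)⟩
    rw [show y - (y - d) = d by ring] at h1
    linarith
  have h1 : Metric.closedBall x h = Icc (x - h) (x + h) := Real.closedBall_eq_Icc
  rw [h1]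
  have h2 : Iic (x + h) = Iic (x - h) ∪ Ioc (x - h) (x + h) :=
    (Iic_union_Ioc_eq_Iic (by linarith)).symm
  have h3 : (μ : Measure ℝ).real (Iic (x + h)) = (μ : Measure ℝ).real (Iic (x - h)) +
      (μ : Measure ℝ).real (Ioc (x - h) (x + h)) := by
    rw [h2, measureReal_union (by
      rw [Set.disjoint_left]
      intro y hy hy2
      exact absurd hy2.1 (not_lt.2 hy)) measurableSet_Ioc]
  have h4 : Icc (x - h) (x + h) = {x - h} ∪ Ioc (x - h) (x + h) := by
    rw [union_comm, Ioc_union_left (by linarith)]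
  rw [h3, h4, measureReal_union (by
    rw [disjoint_singleton_left]
    exact fun hy => lt_irrefl _ hy.1) measurableSet_Ioc, h0]
  ring

/-- **The limit law has a log-concave density.** -/
theorem limit_density (hν : Tendsto ν atTop (𝓝 μ)) (hs : Tendsto s atTop atTop) {C : ℝ≥0}
    (hL : ∀ᶠ k in atTop, ∀ a b : ℝ, a ≤ b →
      G (ν k) (s k) b - G (ν k) (s k) a ≤ C * (b - a))
    (hlc : ∀ᶠ k in atTop, ∀ h : ℝ, 0 < h → ∀ u v : ℝ, 0 < u → 0 < v → u + v = 1 → ∀ x y : ℝ,
      (G (ν k) (s k) (x + h) - G (ν k) (s k) (x - h)) ^ u *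
        (G (ν k) (s k) (y + h) - G (ν k) (s k) (y - h)) ^ v ≤
      G (ν k) (s k) (u * x + v * y + h) - G (ν k) (s k) (u * x + v * y - h)) :
    ∃ p : ℝ → ℝ, (∀ x, 0 ≤ p x ∧ p x ≤ C) ∧
      (∀ u v : ℝ, 0 < u → 0 < v → u + v = 1 → ∀ x y : ℝ, p x ^ u * p y ^ v ≤ p (u * x + v * y)) ∧
      AEMeasurable p volume ∧
      (μ : Measure ℝ) = volume.withDensity (fun x => ENNReal.ofReal (p x)) := by
  refine exists_density (fun a b hab => ?_) fun h hh u v hu hv huv x y => ?_
  · have h1 : (μ : Measure ℝ).real (Ioc a b) ≤ C * (b - a) := by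
      have h2 := lip hν hs hL hab
      have h3 : (μ : Measure ℝ).real (Iic b) = (μ : Measure ℝ).real (Iic a) +
          (μ : Measure ℝ).real (Ioc a b) := by
        rw [← Iic_union_Ioc_eq_Iic hab, measureReal_union (by
          rw [Set.disjoint_left]
          intro y hy hy2
          exact absurd hy2.1 (not_lt.2 hy)) measurableSet_Ioc]
      linarith
    rw [← ofReal_measureReal]
    exact ENNReal.ofReal_le_ofReal h1
  · rw [ball_eq hν hs hL x hh.le, ball_eq hν hs hL y hh.le, ball_eq hν hs hL _ hh.le]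
    have ht := fun b => G_tendsto hν hs hL b
    refine le_of_tendsto_of_tendsto ?_ ((ht (u * x + v * y + h)).sub (ht (u * x + v * y - h)))
      (hlc.mono fun k hk => hk h hh u v hu hv huv x y)
    exact (((ht (x + h)).sub (ht (x - h))).rpow_const (Or.inr hu.le)).mul
      (((ht (y + h)).sub (ht (y - h))).rpow_const (Or.inr hv.le))

end limit

end Vale.Agent.P146.H695
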