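import Mathlib

/-!
# A law on the line with log-concave interval probabilities has a log-concave density
-/

open MeasureTheory Set Filter Topology
open scoped ENNReal NNReal

namespace Vale.Agent.P146.H695

/-- A law with Lipschitz distribution function is dominated by a multiple of Lebesgue measure. -/
theorem le_vol {μ : Measure ℝ} {C : ℝ≥0}
    (h : ∀ a b : ℝ, a ≤ b → μ (Ioc a b) ≤ ENNReal.ofReal (C * (b - a))) :
    μ ≤ C • volume := by
  have h1 : μ ≤ (C • StieltjesFunction.id).measure := by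
    refine Measure.le_iff.2 fun s hs => ?_
    have h2 : (C • StieltjesFunction.id).measure s = (C • StieltjesFunction.id).outer s := by
      rw [StieltjesFunction.measure]
      rfl
    rw [h2]
    have h3 : μ.toOuterMeasure ≤ (C • StieltjesFunction.id).outer := by
      refine OuterMeasure.le_ofFunction.2 fun s => ?_
      rw [StieltjesFunction.length_eq]
      refine le_iInf fun a => le_iInf fun b => le_iInf fun hab => ?_
      have hb : (botSet : Set ℝ) = ∅ := by
        ext x
        simp [botSet]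
      rw [hb, sdiff_empty] at hab
      refine (μ.mono hab).trans ?_
      rcases le_total a b with h4 | h4
      · refine (h a b h4).trans (le_of_eq ?_)
        congr 1
        change (C : ℝ) * (b - a) = C * b - C * a
        ring
      · rw [Ioc_eq_empty (not_lt.2 h4)]
        simp
    exact h3 s
  rwa [StieltjesFunction.measure_smul, ← Real.volume_eq_stieltjes_id] at h1

/-- `closedBall x r` has at most `C` times its length. -/
lemma ball_le {μ : Measure ℝ} {C : ℝ≥0} (h : μ ≤ C • volume) (x : ℝ) {r : ℝ} :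
    μ (Metric.closedBall x r) ≤ ENNReal.ofReal (C * (2 * r)) := by
  refine (h _).trans (le_of_eq ?_)
  rw [Measure.smul_apply, Real.volume_closedBall, ENNReal.ofReal_mul C.coe_nonneg, ENNReal.smul_def,
    smul_eq_mul, ENNReal.ofReal_coe_nnreal]

theorem exists_density {μ : Measure ℝ} [IsProbabilityMeasure μ] {C : ℝ≥0}
    (hL : ∀ a b : ℝ, a ≤ b → μ (Ioc a b) ≤ ENNReal.ofReal (C * (b - a)))
    (hlc : ∀ h : ℝ, 0 < h → ∀ s t : ℝ, 0 < s → 0 < t → s + t = 1 → ∀ x y : ℝ,
      μ.real (Metric.closedBall x h) ^ s * μ.real (Metric.closedBall y h) ^ t ≤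
        μ.real (Metric.closedBall (s * x + t * y) h)) :
    ∃ p : ℝ → ℝ, (∀ x, 0 ≤ p x ∧ p x ≤ C) ∧
      (∀ s t : ℝ, 0 < s → 0 < t → s + t = 1 → ∀ x y : ℝ, p x ^ s * p y ^ t ≤ p (s * x + t * y)) ∧
      AEMeasurable p volume ∧ μ = volume.withDensity (fun x => ENNReal.ofReal (p x)) := by
  have hC := le_vol hL
  have hac : μ ≪ volume := by
    refine Measure.AbsolutelyContinuous.mk fun s _ h0 => ?_
    have h1 := hC s
    rw [Measure.smul_apply, h0, smul_zero] at h1
    exact le_antisymm h1 zero_le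
  -- the ratios
  obtain ⟨q, hq⟩ : ∃ q : ℝ → ℝ → ℝ, ∀ h x, q h x = μ.real (Metric.closedBall x h) / (2 * h) :=
    ⟨_, fun _ _ => rfl⟩
  have hq0 : ∀ h x, 0 < h → 0 ≤ q h x := fun h x hh => by rw [hq]; positivity
  have hqC : ∀ h x, 0 < h → q h x ≤ C := fun h x hh => by
    rw [hq, div_le_iff₀ (by positivity)]
    have h1 := ENNReal.toReal_mono ENNReal.ofReal_ne_top (ball_le hC x (r := h))
    rwa [ENNReal.toReal_ofReal (by positivity)] at h1
  have hql : ∀ h, 0 < h → ∀ s t : ℝ, 0 < s → 0 < t → s + t = 1 → ∀ x y : ℝ,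
      q h x ^ s * q h y ^ t ≤ q h (s * x + t * y) := fun h hh s t hs ht hst x y => by
    rw [hq, hq, hq, Real.div_rpow measureReal_nonneg (by positivity),
      Real.div_rpow measureReal_nonneg (by positivity), div_mul_div_comm,
      ← Real.rpow_add (by positivity), hst, Real.rpow_one]
    have := hlc h hh s t hs ht hst x y
    gcongr
  obtain ⟨h, hh⟩ : ∃ h : ℕ → ℝ, ∀ j, h j = 1 / ((j : ℝ) + 1) := ⟨_, fun _ => rfl⟩
  have hh0 : ∀ j, 0 < h j := fun j => by rw [hh]; positivity
  have hlim : Tendsto h atTop (𝓝[>] 0) := by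
    refine tendsto_nhdsWithin_iff.2 ⟨?_, Eventually.of_forall hh0⟩
    have := tendsto_one_div_add_atTop_nhds_zero_nat (𝕜 := ℝ)
    exact this.congr fun j => (hh j).symm
  have hU : (hyperfilter ℕ : Filter ℕ) ≤ atTop := by
    rw [← Nat.cofinite_eq_atTop]
    exact hyperfilter_le_cofinite
  have hex : ∀ x, ∃ l ∈ Icc (0 : ℝ) C, Tendsto (fun j => q (h j) x) (hyperfilter ℕ : Filter ℕ)
      (𝓝 l) := fun x => by
    have h1 := (isCompact_Icc (a := (0 : ℝ)) (b := C)).ultrafilter_le_nhds
      ((hyperfilter ℕ).map fun j => q (h j) x) (by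
        rw [Ultrafilter.coe_map, le_principal_iff, mem_map]
        exact Eventually.of_forall fun j => ⟨hq0 _ _ (hh0 j), hqC _ _ (hh0 j)⟩)
    exact h1
  choose p hp1 hp2 using hex
  refine ⟨p, fun x => hp1 x, fun s t hs ht hst x y => ?_, ?_⟩
  · refine le_of_tendsto_of_tendsto ?_ (hp2 (s * x + t * y))
      (Eventually.of_forall fun j => hql (h j) (hh0 j) s t hs ht hst x y)
    exact ((hp2 x).rpow_const (Or.inr hs.le)).mul ((hp2 y).rpow_const (Or.inr ht.le))
  have hae : ∀ᵐ x ∂(volume : Measure ℝ), μ.rnDeriv volume x = ENNReal.ofReal (p x) := by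
    filter_upwards [Besicovitch.ae_tendsto_rnDeriv μ (volume : Measure ℝ)] with x hx
    have h1 : Tendsto (fun j => μ (Metric.closedBall x (h j)) / volume (Metric.closedBall x (h j)))
        (hyperfilter ℕ : Filter ℕ) (𝓝 (μ.rnDeriv volume x)) := hx.comp (hlim.mono_left hU)
    have h2 : Tendsto (fun j => ENNReal.ofReal (q (h j) x)) (hyperfilter ℕ : Filter ℕ)
        (𝓝 (ENNReal.ofReal (p x))) := ENNReal.tendsto_ofReal (hp2 x)
    refine tendsto_nhds_unique h1 (h2.congr fun j => ?_)
    rw [hq, Real.volume_closedBall, ENNReal.ofReal_div_of_pos (by have := hh0 j; positivity),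
      ofReal_measureReal]
  have hm : AEMeasurable (fun x => ENNReal.ofReal (p x)) volume :=
    (Measure.measurable_rnDeriv μ volume).aemeasurable.congr hae
  refine ⟨?_, ?_⟩
  · have := hm.ennreal_toReal
    refine this.congr (Eventually.of_forall fun x => ?_)
    simp only
    rw [ENNReal.toReal_ofReal (hp1 x).1]
  · rw [← withDensity_congr_ae hae]
    exact (Measure.withDensity_rnDeriv_eq μ volume hac).symm

end Vale.Agent.P146.H695
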