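import Vale.Agent.P146.H695.Cvg
import Vale.Agent.P146.H641.Mom
import Vale.Agent.P146.H641.Flat
import Vale.Agent.P146.H863.Int
import Vale.Agent.P146.H655.Low
import Vale.Agent.P146.H655.GumSK
import Vale.Agent.P146.H425.LowA

/-!
# P146: the limit laws of the normalised fluctuations are log-concave
-/

open MeasureTheory ProbabilityTheory Set Filter Topology
open scoped ENNReal NNReal

namespace Vale.Agent.P146.H695

open Vale.Agent.P146.H605

section one

variable (n : ℕ) (β : ℝ)

/-- The mean of the free energy. -/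
noncomputable def mn : ℝ := ∫ g, freeEnergy n β g ∂(disorder n)

/-- The standard deviation of the free energy. -/
noncomputable def sd : ℝ := √Var[freeEnergy n β; disorder n]

/-- The normalised fluctuation. -/
noncomputable def Y (g : Pair n → ℝ) : ℝ := (freeEnergy n β g - mn n β) / sd n β

lemma Y_cont : Continuous (Y n β) := by
  have := H863.cont_freeEnergy n β
  unfold Y
  fun_prop

/-- The law of the normalised fluctuation. -/
noncomputable def nlaw : ProbabilityMeasure ℝ :=
  ⟨(disorder n).map (Y n β), Measure.isProbabilityMeasure_map (Y_cont n β).aemeasurable⟩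

lemma nlaw_int {f : ℝ → ℝ} (hf : Continuous f) :
    ∫ y, f y ∂(nlaw n β : Measure ℝ) = ∫ g, f (Y n β g) ∂(disorder n) :=
  integral_map (Y_cont n β).aemeasurable hf.aestronglyMeasurable

lemma nlaw_integrable {f : ℝ → ℝ} (hf : Continuous f)
    (h : Integrable (fun g => f (Y n β g)) (disorder n)) :
    Integrable f (nlaw n β : Measure ℝ) :=
  (integrable_map_measure hf.aestronglyMeasurable (Y_cont n β).aemeasurable).2 h

variable {n β}

lemma G_nlaw (hs : 0 < sd n β) (b : ℝ) : G (nlaw n β) (sd n β) b =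
    ∫ g, Real.exp (-Real.exp (freeEnergy n β g - (mn n β + sd n β * b))) ∂(disorder n) := by
  unfold G
  rw [nlaw_int n β (f := fun y => Real.exp (-Real.exp (sd n β * (y - b)))) (by fun_prop)]
  congr 1
  funext g
  congr 3
  unfold Y
  field_simp
  ring

lemma G_diff (hs : 0 < sd n β) {a b : ℝ} (hab : a ≤ b) :
    G (nlaw n β) (sd n β) b - G (nlaw n β) (sd n β) a =
      ∫ y in (mn n β + sd n β * a)..(mn n β + sd n β * b), H863.p n β y := by
  rw [H863.int_p n β (by nlinarith), G_nlaw hs, G_nlaw hs]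

lemma p_le (y : ℝ) : H863.p n β y ≤ 145 / (1 + sd n β) := H655.gumbel_density n β y

lemma G_lip (hs : 0 < sd n β) {a b : ℝ} (hab : a ≤ b) :
    G (nlaw n β) (sd n β) b - G (nlaw n β) (sd n β) a ≤ ((145 : ℝ≥0) : ℝ) * (b - a) := by
  rw [G_diff hs hab]
  have h1 : mn n β + sd n β * a ≤ mn n β + sd n β * b := by nlinarith
  have h2 : ∫ y in (mn n β + sd n β * a)..(mn n β + sd n β * b), H863.p n β y ≤
      ∫ y in (mn n β + sd n β * a)..(mn n β + sd n β * b), 145 / (1 + sd n β) := by
    refine intervalIntegral.integral_mono_on h1 ((H863.p_cont n β).intervalIntegrable _ _)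
      intervalIntegrable_const fun y _ => p_le y
  rw [intervalIntegral.integral_const, smul_eq_mul] at h2
  refine h2.trans ?_
  have h3 : (mn n β + sd n β * b - (mn n β + sd n β * a)) * (145 / (1 + sd n β)) =
      145 * (b - a) * (sd n β / (1 + sd n β)) := by field_simp; ring
  rw [h3]
  have h4 : sd n β / (1 + sd n β) ≤ 1 := by rw [div_le_one (by positivity)]; linarith
  have h5 : 0 ≤ 145 * (b - a) := by linarith
  calc 145 * (b - a) * (sd n β / (1 + sd n β)) ≤ 145 * (b - a) * 1 :=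
        mul_le_mul_of_nonneg_left h4 h5
    _ = ((145 : ℝ≥0) : ℝ) * (b - a) := by push_cast; ring

lemma G_lc (hs : 0 < sd n β) {h : ℝ} (hh : 0 < h) {u v : ℝ} (hu : 0 < u) (hv : 0 < v)
    (huv : u + v = 1) (x y : ℝ) :
    (G (nlaw n β) (sd n β) (x + h) - G (nlaw n β) (sd n β) (x - h)) ^ u *
      (G (nlaw n β) (sd n β) (y + h) - G (nlaw n β) (sd n β) (y - h)) ^ v ≤
    G (nlaw n β) (sd n β) (u * x + v * y + h) - G (nlaw n β) (sd n β) (u * x + v * y - h) := by
  rw [G_diff hs (by linarith), G_diff hs (by linarith), G_diff hs (by linarith)]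
  have h1 := H863.int_lc n β (h := sd n β * h) (by positivity) hu hv huv
    (mn n β + sd n β * x) (mn n β + sd n β * y)
  have e1 : ∀ z : ℝ, mn n β + sd n β * (z + h) = mn n β + sd n β * z + sd n β * h :=
    fun z => by ring
  have e2 : ∀ z : ℝ, mn n β + sd n β * (z - h) = mn n β + sd n β * z - sd n β * h :=
    fun z => by ring
  have e3 : u * (mn n β + sd n β * x) + v * (mn n β + sd n β * y) =
      mn n β + sd n β * (u * x + v * y) := by
    have : v = 1 - u := by linarith
    subst this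
    ring
  rw [e3] at h1
  rw [e1, e2, e1, e2, e1, e2]
  exact h1

lemma memLp : MemLp (freeEnergy n β) 2 (disorder n) := H641.memLp_freeEnergy n β

lemma integrable_F : Integrable (freeEnergy n β) (disorder n) := memLp.integrable one_le_two

lemma Y_mean : ∫ g, Y n β g ∂(disorder n) = 0 := by
  unfold Y
  rw [integral_div, integral_sub integrable_F (integrable_const _)]
  simp [mn]

lemma Y_sq (hs : 0 < sd n β) : ∫ g, Y n β g ^ 2 ∂(disorder n) = 1 := by
  unfold Y
  simp_rw [div_pow]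
  rw [integral_div]
  have h1 : ∫ g, (freeEnergy n β g - mn n β) ^ 2 ∂(disorder n) =
      Var[freeEnergy n β; disorder n] :=
    (variance_eq_integral (H863.cont_freeEnergy n β).aemeasurable).symm
  have h2 : sd n β ^ 2 = Var[freeEnergy n β; disorder n] := Real.sq_sqrt (variance_nonneg _ _)
  rw [h1, ← h2, div_self (by positivity)]

lemma pow_four_le (t : ℝ) : t ^ 4 ≤ 24 * (Real.exp t + Real.exp (-t)) := by
  have h1 : ∀ u : ℝ, 0 ≤ u → u ^ 4 ≤ 24 * Real.exp u := fun u hu => by
    have := Real.pow_div_factorial_le_exp u hu 4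
    rw [div_le_iff₀ (by positivity)] at this
    norm_num [Nat.factorial] at this
    linarith
  rcases le_total 0 t with h | h
  · have := h1 t h
    have := Real.exp_pos (-t)
    linarith
  · have h2 := h1 (-t) (by linarith)
    have h3 := Real.exp_pos t
    have h4 : (-t) ^ 4 = t ^ 4 := by ring
    rw [h4] at h2
    linarith

lemma Y_four (hs : 1 ≤ sd n β) : Integrable (fun g => Y n β g ^ 4) (disorder n) ∧
    ∫ g, Y n β g ^ 4 ∂(disorder n) ≤ 24 * 7 * 36 ^ 4 := by
  have hs0 : 0 < sd n β := by linarith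
  obtain ⟨x, hx⟩ : ∃ x, x = 1 / (18 * (1 + sd n β)) := ⟨_, rfl⟩
  have hx0 : 0 < x := by rw [hx]; positivity
  have hx1 : x * (18 * (1 + sd n β)) = 1 := by rw [hx]; field_simp
  obtain ⟨i1, b1⟩ := H641.exp_moment n β hx0.le (show x * (18 * H641.sd1 n β) ≤ 1 from hx1.le)
  obtain ⟨i2, b2⟩ := H655.exp_moment_neg n β hx0.le
    (show x * (18 * (1 + √Var[freeEnergy n β; disorder n])) ≤ 1 from hx1.le)
  have i1' : Integrable (fun g => Real.exp (x * (freeEnergy n β g - mn n β))) (disorder n) := i1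
  have i2' : Integrable (fun g => Real.exp (-(x * (freeEnergy n β g - mn n β)))) (disorder n) := i2
  have hpt : ∀ g, Y n β g ^ 4 ≤ 36 ^ 4 * (24 * (Real.exp (x * (freeEnergy n β g - mn n β)) +
      Real.exp (-(x * (freeEnergy n β g - mn n β))))) := fun g => by
    have h1 := pow_four_le (x * (freeEnergy n β g - mn n β))
    refine le_trans ?_ (mul_le_mul_of_nonneg_left h1 (by positivity))
    have h2 : Y n β g = (18 * (1 + sd n β) / sd n β) * (x * (freeEnergy n β g - mn n β)) := by
      unfold Y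
      rw [hx]
      field_simp
    have h3 : 18 * (1 + sd n β) / sd n β ≤ 36 := by
      rw [div_le_iff₀ hs0]; linarith
    rw [h2, mul_pow]
    have h4 : 0 ≤ (x * (freeEnergy n β g - mn n β)) ^ 4 := by positivity
    have h5 : (18 * (1 + sd n β) / sd n β) ^ 4 ≤ 36 ^ 4 :=
      pow_le_pow_left₀ (by positivity) h3 4
    exact mul_le_mul_of_nonneg_right h5 h4
  have hi : Integrable (fun g => 36 ^ 4 * (24 * (Real.exp (x * (freeEnergy n β g - mn n β)) +
      Real.exp (-(x * (freeEnergy n β g - mn n β)))))) (disorder n) :=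
    ((i1'.add i2').const_mul 24).const_mul (36 ^ 4)
  have hY : Integrable (fun g => Y n β g ^ 4) (disorder n) := by
    refine hi.mono' ((Y_cont n β).pow 4).aestronglyMeasurable (Eventually.of_forall fun g => ?_)
    rw [Real.norm_of_nonneg (by positivity)]
    exact hpt g
  refine ⟨hY, (integral_mono hY hi hpt).trans ?_⟩
  rw [integral_const_mul, integral_const_mul, integral_add i1' i2']
  have h1 : ∫ g, Real.exp (x * (freeEnergy n β g - mn n β)) ∂(disorder n) ≤ 7 / 2 := b1
  have h2 : ∫ g, Real.exp (-(x * (freeEnergy n β g - mn n β))) ∂(disorder n) ≤ 7 / 2 := b2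
  nlinarith

lemma nlaw_mean : ∫ y, y ∂(nlaw n β : Measure ℝ) = 0 := by
  rw [nlaw_int n β (f := fun y => y) continuous_id]
  exact Y_mean

lemma nlaw_sq (hs : 0 < sd n β) : ∫ y, y ^ 2 ∂(nlaw n β : Measure ℝ) = 1 := by
  rw [nlaw_int n β (f := fun y => y ^ 2) (by fun_prop)]
  exact Y_sq hs

lemma nlaw_four (hs : 1 ≤ sd n β) : Integrable (fun y : ℝ => y ^ 4) (nlaw n β : Measure ℝ) ∧
    ∫ y, y ^ 4 ∂(nlaw n β : Measure ℝ) ≤ 24 * 7 * 36 ^ 4 := by
  obtain ⟨h1, h2⟩ := Y_four hs
  refine ⟨nlaw_integrable n β (by fun_prop) h1, ?_⟩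
  rw [nlaw_int n β (f := fun y => y ^ 4) (by fun_prop)]
  exact h2

lemma nlaw_tail (hs : 0 < sd n β) {R : ℝ} (hR : 0 < R) :
    (nlaw n β : Measure ℝ) (Icc (-R) R)ᶜ ≤ ENNReal.ofReal (1 / R ^ 2) := by
  have hi : Integrable (fun y : ℝ => y ^ 2) (nlaw n β : Measure ℝ) :=
    Integrable.of_integral_ne_zero (by rw [nlaw_sq hs]; norm_num)
  have h1 := mul_meas_ge_le_integral_of_nonneg (μ := (nlaw n β : Measure ℝ))
    (f := fun y : ℝ => y ^ 2) (Eventually.of_forall fun y => sq_nonneg y) hi (R ^ 2)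
  rw [nlaw_sq hs] at h1
  have h2 : (nlaw n β : Measure ℝ).real (Icc (-R) R)ᶜ ≤ 1 / R ^ 2 := by
    rw [le_div_iff₀ (by positivity), mul_comm]
    refine le_trans ?_ h1
    refine mul_le_mul_of_nonneg_left (measureReal_mono ?_) (by positivity)
    intro y hy
    have h3 : ¬ |y| ≤ R := fun h => hy (abs_le.1 h)
    have h4 : R ≤ |y| := (not_le.1 h3).le
    change R ^ 2 ≤ y ^ 2
    rw [← sq_abs y]
    exact pow_le_pow_left₀ hR.le h4 2
  rw [← ofReal_measureReal]
  exact ENNReal.ofReal_le_ofReal h2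

end one

/-- **The limit laws.**  If the variance tends to infinity along a sequence, then along a
subsequence the normalised fluctuations converge in law to a log-concave law with mean `0`,
variance `1` and density at most `145`. -/
theorem limit_law {β : ℝ} {N : ℕ → ℕ}
    (hV : Tendsto (fun k => Var[freeEnergy (N k) β; disorder (N k)]) atTop atTop) :
    ∃ (φ : ℕ → ℕ) (p : ℝ → ℝ), StrictMono φ ∧ (∀ x, 0 ≤ p x ∧ p x ≤ 145) ∧
      (∀ s t : ℝ, 0 < s → 0 < t → s + t = 1 → ∀ x y : ℝ,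
        p x ^ s * p y ^ t ≤ p (s * x + t * y)) ∧
      ∫ x, p x = 1 ∧ ∫ x, x * p x = 0 ∧ ∫ x, x ^ 2 * p x = 1 ∧
      ∀ f : ℝ → ℝ, Continuous f → (∃ C, ∀ x, |f x| ≤ C) →
        Tendsto (fun k => ∫ g, f ((freeEnergy (N (φ k)) β g -
          ∫ h, freeEnergy (N (φ k)) β h ∂(disorder (N (φ k)))) /
            √Var[freeEnergy (N (φ k)) β; disorder (N (φ k))]) ∂(disorder (N (φ k))))
          atTop (𝓝 (∫ x, f x * p x)) := by
  have hsd : Tendsto (fun k => sd (N k) β) atTop atTop := Real.tendsto_sqrt_atTop.comp hV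
  obtain ⟨k0, hk0⟩ := (hsd.eventually_ge_atTop 1).exists_forall_of_atTop
  obtain ⟨ν, hν⟩ : ∃ ν : ℕ → ProbabilityMeasure ℝ, ∀ k, ν k = nlaw (N (k + k0)) β :=
    ⟨_, fun _ => rfl⟩
  have hs1 : ∀ k, 1 ≤ sd (N (k + k0)) β := fun k => hk0 _ (by omega)
  have hs0 : ∀ k, 0 < sd (N (k + k0)) β := fun k => by have := hs1 k; linarith
  have htight : IsTightMeasureSet {((μ : ProbabilityMeasure ℝ) : Measure ℝ) | μ ∈ range ν} := by
    refine isTightMeasureSet_iff_exists_isCompact_measure_compl_le.2 fun ε hε => ?_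
    obtain ⟨R, hR, hR2⟩ : ∃ R : ℝ, 0 < R ∧ ENNReal.ofReal (1 / R ^ 2) ≤ ε := by
      have h1 : Tendsto (fun R : ℝ => ENNReal.ofReal (1 / R ^ 2)) atTop (𝓝 0) := by
        rw [← ENNReal.ofReal_zero]
        refine ENNReal.tendsto_ofReal ?_
        have := (tendsto_pow_atTop (α := ℝ) (n := 2) (by norm_num)).inv_tendsto_atTop
        refine this.congr fun R => ?_
        simp [one_div]
      obtain ⟨R, h2, h3⟩ := ((h1.eventually_lt_const hε).and (eventually_gt_atTop 0)).exists
      exact ⟨R, h3, h2.le⟩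
    refine ⟨Icc (-R) R, isCompact_Icc, ?_⟩
    rintro _ ⟨_, ⟨k, rfl⟩, rfl⟩
    rw [hν]
    exact (nlaw_tail (hs0 k) hR).trans hR2
  have hcomp := isCompact_closure_of_isTightMeasureSet htight
  obtain ⟨μ, -, ψ, hψ, hlim⟩ := hcomp.tendsto_subseq (x := ν)
    (fun k => subset_closure (mem_range_self k))
  have hψ' : Tendsto (fun k => ψ k + k0) atTop atTop :=
    tendsto_atTop_mono (fun k => Nat.le_add_right _ _) hψ.tendsto_atTop
  have hs' : Tendsto (fun k => sd (N (ψ k + k0)) β) atTop atTop := hsd.comp hψ'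
  have hlim' : Tendsto (fun k => nlaw (N (ψ k + k0)) β) atTop (𝓝 μ) :=
    hlim.congr fun k => hν (ψ k)
  obtain ⟨p, hp1, hp2, hp3, hp4⟩ := limit_density hlim' hs' (C := 145)
    (Eventually.of_forall fun k a b hab => G_lip (hs0 _) hab)
    (Eventually.of_forall fun k h hh u v hu hv huv x y => G_lc (hs0 _) hh hu hv huv x y)
  have hint : ∀ f : ℝ → ℝ, ∫ x, f x ∂(μ : Measure ℝ) = ∫ x, f x * p x := fun f => by
    rw [hp4, integral_withDensity_eq_integral_toReal_smul₀ hp3.ennreal_ofReal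
      (Eventually.of_forall fun x => ENNReal.ofReal_lt_top)]
    congr 1
    funext x
    rw [ENNReal.toReal_ofReal (hp1 x).1, smul_eq_mul, mul_comm]
  obtain ⟨-, m1, m2⟩ := H641.moments_limit hlim' (fun k => nlaw_mean)
    (fun k => nlaw_sq (hs0 _)) (fun k => (nlaw_four (hs1 _)).1) (fun k => (nlaw_four (hs1 _)).2)
  refine ⟨fun k => ψ k + k0, p, fun a b hab => by have := hψ hab; simp only; omega,
    fun x => by simpa using hp1 x, hp2, ?_, ?_, ?_, ?_⟩
  · have h1 := hint fun _ => 1
    simpa using h1.symm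
  · rw [← hint]; exact m1
  · rw [← hint fun x => x ^ 2]; exact m2
  · intro f hf ⟨C, hC⟩
    rw [← hint]
    let fB : BoundedContinuousFunction ℝ ℝ := BoundedContinuousFunction.ofNormedAddCommGroup f hf C
      fun x => by rw [Real.norm_eq_abs]; exact hC x
    have h1 := (ProbabilityMeasure.tendsto_iff_forall_integral_tendsto.1 hlim') fB
    refine h1.congr fun k => ?_
    exact nlaw_int (N (ψ k + k0)) β hf

/-- **Below the critical temperature every sequence of sizes has a subsequence along which the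
normalised fluctuations of the free energy converge to a log-concave law.** -/
theorem limit_low {β : ℝ} (hβ : 1 < β) {N : ℕ → ℕ} (hN : Tendsto N atTop atTop) :
    ∃ (φ : ℕ → ℕ) (p : ℝ → ℝ), StrictMono φ ∧ (∀ x, 0 ≤ p x ∧ p x ≤ 145) ∧
      (∀ s t : ℝ, 0 < s → 0 < t → s + t = 1 → ∀ x y : ℝ,
        p x ^ s * p y ^ t ≤ p (s * x + t * y)) ∧
      ∫ x, p x = 1 ∧ ∫ x, x * p x = 0 ∧ ∫ x, x ^ 2 * p x = 1 ∧
      ∀ f : ℝ → ℝ, Continuous f → (∃ C, ∀ x, |f x| ≤ C) →
        Tendsto (fun k => ∫ g, f ((freeEnergy (N (φ k)) β g -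
          ∫ h, freeEnergy (N (φ k)) β h ∂(disorder (N (φ k)))) /
            √Var[freeEnergy (N (φ k)) β; disorder (N (φ k))]) ∂(disorder (N (φ k))))
          atTop (𝓝 (∫ x, f x * p x)) := by
  refine limit_law ?_
  have h1 := H425.LowA.var_low H641.flat' hβ (1 / 16) (by norm_num)
  have h2 : Tendsto (fun n : ℕ => (n : ℝ) ^ (1 / 16 : ℝ)) atTop atTop :=
    (tendsto_rpow_atTop (by norm_num)).comp tendsto_natCast_atTop_atTop
  have h3 : Tendsto (fun n : ℕ => Var[freeEnergy n β; disorder n]) atTop atTop :=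
    tendsto_atTop_mono' _ (h1.mono fun n hn => hn.1) h2
  exact h3.comp hN

end Vale.Agent.P146.H695
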