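import Vale.Agent.P146.H695.Top
import Vale.Agent.P146.H737.VB
import Vale.Agent.P146.H260.Dev4
import Vale.Agent.P146.H641.Tail

set_option linter.all false

/-!
# P146: lower bounds from an almost subadditive log-moment

`SubX β a b`: `log E Z_{2n}^x ≤ 2 log E Z_n^x + C n^a x^b`.  Together with the sharp law of the
moments at small powers this gives `log E e^{x(F-np)} ≥ (Λ-ε) n x⁶ - K n^a x^b` for all `n ≥ 1` and
all small `x`.
-/

open MeasureTheory ProbabilityTheory Filter Topology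

namespace Vale.Agent.P146.H695.Sub

open Vale.Agent.P146 Vale.Agent.P146.H605

/-- `log E Z_n^x` -/
noncomputable def LZ (n : ℕ) (β x : ℝ) : ℝ :=
  Real.log (∫ g, Real.exp (x * freeEnergy n β g) ∂(disorder n))

/-- The log-moment is almost subadditive under doubling. -/
def SubX (β a b : ℝ) : Prop := ∃ C : ℝ, 0 ≤ C ∧ ∀ n : ℕ, 1 ≤ n → ∀ x : ℝ, 0 < x → x ≤ 1 / 2 →
  1 ≤ x * n →
  LZ (2 * n) β x ≤ 2 * LZ n β x + C * ((n : ℝ) ^ a * x ^ b)

/-- Iteration. -/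
theorem iter {β a b : ℝ} (ha : a < 1) (h : SubX β a b) : ∃ K : ℝ, 0 ≤ K ∧
    ∀ n : ℕ, 1 ≤ n → ∀ x : ℝ, 0 < x → x ≤ 1 / 2 → 1 ≤ x * n → ∀ k : ℕ,
      LZ (2 ^ k * n) β x ≤ 2 ^ k * (LZ n β x + K * ((n : ℝ) ^ a * x ^ b)) := by
  obtain ⟨C, hC, hS⟩ := h
  have h2 : (0 : ℝ) < 2 - 2 ^ a := by
    have : (2 : ℝ) ^ a < 2 ^ (1 : ℝ) := Real.rpow_lt_rpow_of_exponent_lt (by norm_num) ha
    rw [Real.rpow_one] at this
    linarith
  obtain ⟨K, hK⟩ : ∃ K, K = C / (2 - 2 ^ a) := ⟨_, rfl⟩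
  have hK0 : 0 ≤ K := by rw [hK]; positivity
  have hKe : C + K * 2 ^ a = 2 * K := by
    rw [hK]
    field_simp
    ring
  refine ⟨K, hK0, fun n hn x hx hx1 hxn k => ?_⟩
  have key : ∀ k : ℕ, LZ (2 ^ k * n) β x + K * (((2 ^ k * n : ℕ) : ℝ) ^ a * x ^ b) ≤
      2 ^ k * (LZ n β x + K * ((n : ℝ) ^ a * x ^ b)) := by
    intro k
    induction k with
    | zero => simp
    | succ k ih =>
      have hm : 1 ≤ 2 ^ k * n := Nat.one_le_iff_ne_zero.2 (by positivity)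
      have hxm : 1 ≤ x * ((2 ^ k * n : ℕ) : ℝ) := by
        refine hxn.trans (mul_le_mul_of_nonneg_left ?_ hx.le)
        have : n ≤ 2 ^ k * n := Nat.le_mul_of_pos_left _ (by positivity)
        exact_mod_cast this
      have h3 := hS (2 ^ k * n) hm x hx hx1 hxm
      have e1 : 2 ^ (k + 1) * n = 2 * (2 ^ k * n) := by ring
      have e2 : (((2 * (2 ^ k * n) : ℕ) : ℝ)) ^ a = 2 ^ a * ((2 ^ k * n : ℕ) : ℝ) ^ a := by
        rw [Nat.cast_mul, Real.mul_rpow (by norm_num) (by positivity)]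
        norm_num
      rw [e1, e2]
      obtain ⟨y, hy⟩ : ∃ y, y = ((2 ^ k * n : ℕ) : ℝ) ^ a * x ^ b := ⟨_, rfl⟩
      have e3 : 2 ^ a * ((2 ^ k * n : ℕ) : ℝ) ^ a * x ^ b = 2 ^ a * y := by rw [hy]; ring
      rw [e3]
      rw [← hy] at h3 ih
      have e4 : (2 : ℝ) ^ (k + 1) * (LZ n β x + K * ((n : ℝ) ^ a * x ^ b)) =
          2 * (2 ^ k * (LZ n β x + K * ((n : ℝ) ^ a * x ^ b))) := by ring
      rw [e4]
      have e5 : C * y + K * (2 ^ a * y) = 2 * (K * y) := by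
        have : C * y + K * (2 ^ a * y) = (C + K * 2 ^ a) * y := by ring
        rw [this, hKe]; ring
      linarith
  have h4 := key k
  have h5 : 0 ≤ K * (((2 ^ k * n : ℕ) : ℝ) ^ a * x ^ b) := by positivity
  linarith

lemma int_exp (n : ℕ) (β x E : ℝ) :
    Integrable (fun g => Real.exp (x * (freeEnergy n β g - E))) (disorder n) :=
  H260.Dev.int_exp n β x E

lemma log_shift (n : ℕ) (β x E : ℝ) :
    Real.log (∫ g, Real.exp (x * (freeEnergy n β g - E)) ∂(disorder n)) =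
      LZ n β x - x * E := by
  have h1 : Integrable (fun g => Real.exp (x * freeEnergy n β g)) (disorder n) := by
    simpa using int_exp n β x 0
  have hp : 0 < ∫ g, Real.exp (x * freeEnergy n β g) ∂(disorder n) := integral_exp_pos h1
  have e1 : ∀ g, Real.exp (x * (freeEnergy n β g - E)) =
      Real.exp (-(x * E)) * Real.exp (x * freeEnergy n β g) := fun g => by
    rw [← Real.exp_add]; congr 1; ring
  simp_rw [e1]
  rw [integral_const_mul, Real.log_mul (Real.exp_pos _).ne' hp.ne', Real.log_exp, LZ]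
  ring

/-- **The lower law at all sizes.** -/
theorem low {β : ℝ} (hβ : 1 < β) {a b : ℝ} (ha : a < 1) (h : SubX β a b) :
    ∃ Λ p K : ℝ, 0 < Λ ∧ 0 ≤ K ∧
      (∀ n : ℕ, 1 ≤ n → ∫ g, freeEnergy n β g ∂(disorder n) ≤ n * p) ∧
      ∀ ε : ℝ, 0 < ε → ∃ δ : ℝ, 0 < δ ∧ ∀ n : ℕ, 1 ≤ n → ∀ x : ℝ, 0 < x → x ≤ δ → 1 ≤ x * n →
        (Λ - ε) * n * x ^ 6 - K * ((n : ℝ) ^ a * x ^ b) ≤ LZ n β x - x * (n * p) := by
  obtain ⟨Λ, -, hΛ⟩ := H737.bounds4
  obtain ⟨hL, p, D, -, hm, h3⟩ := hΛ β hβ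
  obtain ⟨K, hK, hit⟩ := iter ha h
  refine ⟨Λ β, p, K, hL, hK, fun n hn => by linarith [(h3 n hn).1], fun ε hε => ?_⟩
  obtain ⟨δ, hδ, hev⟩ := hm ε hε (1 / 16) (by norm_num)
  refine ⟨min δ (1 / 2), lt_min hδ (by norm_num), fun n hn x hx hxδ hxn => ?_⟩
  have hx1 : x ≤ 1 / 2 := hxδ.trans (min_le_right _ _)
  have hxd : x ≤ δ := hxδ.trans (min_le_left _ _)
  have hn0 : (0 : ℝ) < n := by exact_mod_cast hn
  have ht : Tendsto (fun k : ℕ => 2 ^ k * n) atTop atTop := by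
    refine tendsto_atTop_mono (fun k => ?_) tendsto_id
    have : k < 2 ^ k := Nat.lt_two_pow_self
    have h1 : 2 ^ k ≤ 2 ^ k * n := Nat.le_mul_of_pos_right _ hn
    simp only [id]
    omega
  have hev2 : ∀ᶠ N : ℕ in atTop, (N : ℝ) ^ (-(1 / 16 : ℝ)) ≤ x :=
    ((tendsto_rpow_neg_atTop (show (0 : ℝ) < 1 / 16 by norm_num)).comp
      (tendsto_natCast_atTop_atTop (R := ℝ))).eventually_le_const hx
  obtain ⟨k, ⟨h4, -⟩, h5⟩ := (ht.eventually (hev.and hev2)).exists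
  have h6 := h4 x h5 hxd
  rw [log_shift] at h6
  have h7 := (abs_le.1 h6).1
  have h8 := hit n hn x hx hx1 hxn k
  have hk : (0 : ℝ) < 2 ^ k := by positivity
  have e1 : ((2 ^ k * n : ℕ) : ℝ) = 2 ^ k * n := by push_cast; ring
  rw [e1] at h7
  have h9 : 2 ^ k * ((Λ β - ε) * n * x ^ 6 + x * (n * p)) ≤
      2 ^ k * (LZ n β x + K * ((n : ℝ) ^ a * x ^ b)) := by
    refine le_trans ?_ h8
    have : 2 ^ k * ((Λ β - ε) * n * x ^ 6 + x * (n * p)) =
      Λ β * (2 ^ k * n) * x ^ 6 - ε * (2 ^ k * n) * x ^ 6 + x * (2 ^ k * n * p) := by ring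
    rw [this]
    linarith
  have h10 := le_of_mul_le_mul_left h9 hk
  linarith

/-- **The lower bound of the centered moments**, `x ≥ n^(-(1-a)/(6-b)+)`. -/
theorem lob {β : ℝ} (hβ : 1 < β) {a b B : ℝ} (ha0 : 0 ≤ a) (ha : a < 1) (hb : b ≤ 1) (hB : B = (1 - a) / (6 - b))
    (h : ∀ a' : ℝ, a < a' → SubX β a' b) : H260.Dev.Lob β B := by
  intro e he
  have h6 : 0 < 6 - b := by linarith
  obtain ⟨η, hη⟩ : ∃ η, η = min (e * (6 - b) / 2) ((1 - a) / 2) := ⟨_, rfl⟩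
  have hη1 : η ≤ e * (6 - b) / 2 := by rw [hη]; exact min_le_left _ _
  have hη2 : η ≤ (1 - a) / 2 := by rw [hη]; exact min_le_right _ _
  have hη0 : 0 < η := by
    rw [hη]
    exact lt_min (by positivity) (by linarith)
  obtain ⟨Λ, p, K, hΛ, hK, hp, hl⟩ := low hβ (a := a + η) (by linarith) (h _ (by linarith))
  obtain ⟨δ, hδ, hn⟩ := hl (Λ / 2) (by positivity)
  refine ⟨δ, hδ, ?_⟩
  have hev1 : ∀ᶠ n : ℕ in atTop, 4 * K / Λ ≤ (n : ℝ) ^ η :=
    ((tendsto_rpow_atTop hη0).comp (tendsto_natCast_atTop_atTop (R := ℝ))).eventually_ge_atTop _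
  have hev2 : ∀ᶠ n : ℕ in atTop, 4 / Λ ≤ (n : ℝ) ^ e :=
    ((tendsto_rpow_atTop he).comp (tendsto_natCast_atTop_atTop (R := ℝ))).eventually_ge_atTop _
  filter_upwards [hev1, hev2, eventually_ge_atTop 1] with n g1 g2 g3 x hx hxδ
  have hn1 : (1 : ℝ) ≤ n := by exact_mod_cast g3
  have hn0 : (0 : ℝ) < n := by linarith
  have hx0 : 0 < x := lt_of_lt_of_le (Real.rpow_pos_of_pos hn0 _) hx
  have hB1 : B < 1 := by
    rw [hB, div_lt_one h6]
    linarith
  have hxn : 1 ≤ x * n := by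
    have h1 : (n : ℝ) ^ (0 : ℝ) ≤ (n : ℝ) ^ (1 - B + e) :=
      Real.rpow_le_rpow_of_exponent_le hn1 (by linarith)
    rw [Real.rpow_zero] at h1
    have h2 : (n : ℝ) ^ (1 - B + e) = (n : ℝ) ^ (-B + e) * n := by
      nth_rewrite 3 [← Real.rpow_one (n : ℝ)]
      rw [← Real.rpow_add hn0]
      congr 1; ring
    rw [h2] at h1
    exact h1.trans (mul_le_mul_of_nonneg_right hx hn0.le)
  have k1 := hn n g3 x hx0 hxδ hxn
  have k2 := hp n g3
  have e0 : x * (n * p) ≥ x * ∫ g, freeEnergy n β g ∂(disorder n) :=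
    mul_le_mul_of_nonneg_left k2 hx0.le
  rw [log_shift]
  -- the error term
  have e1 : K * ((n : ℝ) ^ (a + η) * x ^ b) ≤ Λ / 4 * n * x ^ 6 := by
    have h1 : (n : ℝ) ^ (a - 1 + 2 * η) ≤ x ^ (6 - b) := by
      have h2 : ((n : ℝ) ^ (-B + e)) ^ (6 - b) ≤ x ^ (6 - b) :=
        Real.rpow_le_rpow (by positivity) hx h6.le
      refine le_trans ?_ h2
      rw [← Real.rpow_mul hn0.le]
      refine Real.rpow_le_rpow_of_exponent_le hn1 ?_
      have h3 : (-B + e) * (6 - b) = -(1 - a) + e * (6 - b) := by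
        rw [hB]; field_simp
      rw [h3]; linarith
    have h2 : 4 * K / Λ * (n : ℝ) ^ (a + η) ≤ n * x ^ (6 - b) := by
      calc 4 * K / Λ * (n : ℝ) ^ (a + η) ≤ (n : ℝ) ^ η * (n : ℝ) ^ (a + η) :=
            mul_le_mul_of_nonneg_right g1 (by positivity)
        _ = n * (n : ℝ) ^ (a - 1 + 2 * η) := by
            rw [← Real.rpow_add hn0]
            nth_rewrite 2 [← Real.rpow_one (n : ℝ)]
            rw [← Real.rpow_add hn0]
            congr 1; ring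
        _ ≤ _ := mul_le_mul_of_nonneg_left h1 hn0.le
    have h3 : x ^ (6 - b) * x ^ b = x ^ 6 := by
      rw [← Real.rpow_add hx0]
      have : (6 - b + b : ℝ) = ((6 : ℕ) : ℝ) := by push_cast; ring
      rw [this, Real.rpow_natCast]
    have h4 : 4 * K / Λ * ((n : ℝ) ^ (a + η) * x ^ b) ≤ n * x ^ 6 := by
      have := mul_le_mul_of_nonneg_right h2 (Real.rpow_nonneg hx0.le b)
      rw [mul_assoc, mul_assoc (n : ℝ), h3] at this
      exact this
    have h5 := mul_le_mul_of_nonneg_left h4 (show (0 : ℝ) ≤ Λ / 4 by positivity)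
    have h6' : Λ / 4 * (4 * K / Λ * ((n : ℝ) ^ (a + η) * x ^ b)) =
        K * ((n : ℝ) ^ (a + η) * x ^ b) := by
      field_simp
    rw [h6'] at h5
    linarith
  have e2 : (n : ℝ) ^ (1 - e) * x ^ 6 ≤ Λ / 4 * n * x ^ 6 := by
    refine mul_le_mul_of_nonneg_right ?_ (by positivity)
    rw [Real.rpow_sub hn0, Real.rpow_one, div_le_iff₀ (by positivity)]
    have h1 : Λ / 4 * n * (4 / Λ) ≤ Λ / 4 * n * (n : ℝ) ^ e :=
      mul_le_mul_of_nonneg_left g2 (by positivity)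
    have h2 : Λ / 4 * n * (4 / Λ) = n := by field_simp
    linarith
  nlinarith [e1, e2, k1, e0]

/-- The variance from the lower bound of the centered moments. -/
theorem lowV_of_lob {β B : ℝ} (hB : 0 < B) (hB6 : B ≤ 1 / 6) (h : H260.Dev.Lob β B) :
    LowV β (2 * B) := by
  intro γ hγ
  obtain ⟨m, hm⟩ : ∃ m, m = min ((2 * B - γ) / 4) (B / 8) := ⟨_, rfl⟩
  have hm1 : m ≤ (2 * B - γ) / 4 := by rw [hm]; exact min_le_left _ _
  have hm2 : m ≤ B / 8 := by rw [hm]; exact min_le_right _ _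
  have hm0 : 0 < m := by rw [hm]; exact lt_min (by linarith) (by linarith)
  obtain ⟨δ, hδ, hn⟩ := h m hm0
  have ev : ∀ {u : ℝ} (C : ℝ), 0 < u → ∀ᶠ n : ℕ in atTop, C ≤ (n : ℝ) ^ u := fun C hu =>
    ((tendsto_rpow_atTop hu).comp (tendsto_natCast_atTop_atTop (R := ℝ))).eventually_ge_atTop C
  have evs : ∀ᶠ n : ℕ in atTop, (n : ℝ) ^ (-(B - m)) ≤ δ :=
    ((tendsto_rpow_neg_atTop (show (0 : ℝ) < B - m by linarith)).comp
      (tendsto_natCast_atTop_atTop (R := ℝ))).eventually_le_const hδ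
  filter_upwards [hn, evs, ev 2 (show 0 < 5 * m by linarith),
    ev 36 (show 0 < B - m by linarith),
    ev (36 ^ 2) (show 0 < 2 * B - 2 * m - γ by linarith), eventually_ge_atTop 1]
    with n k1 k2 k3 k4 k5 k6
  have hn1 : (1 : ℝ) ≤ n := by exact_mod_cast k6
  have hn0 : (0 : ℝ) < n := by linarith
  obtain ⟨x, hx⟩ : ∃ x, x = (n : ℝ) ^ (-B + m) := ⟨_, rfl⟩
  have hx0 : 0 < x := by rw [hx]; exact Real.rpow_pos_of_pos hn0 _
  have e5 : (-B + m : ℝ) = -(B - m) := by ring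
  have h1 := k1 x (by rw [hx]) (by rw [hx, e5]; exact k2)
  have h2 : (n : ℝ) ^ (5 * m) ≤ (n : ℝ) ^ (1 - m) * x ^ 6 := by
    have e2 : (n : ℝ) ^ (1 - m) * x ^ 6 = (n : ℝ) ^ (1 - 6 * B + 5 * m) := by
      rw [hx, ← Real.rpow_natCast, ← Real.rpow_mul hn0.le, ← Real.rpow_add hn0]
      congr 1
      push_cast
      ring
    rw [e2]
    exact Real.rpow_le_rpow_of_exponent_le hn1 (by linarith)
  have h3 := H641.sd_of_tail n β hx0 (show 3 / 2 < _ from lt_of_lt_of_le (by linarith) (h2.trans h1))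
  have e4 : 1 / (18 * x) = (n : ℝ) ^ (B - m) / 18 := by
    rw [hx, e5, Real.rpow_neg hn0.le]
    field_simp
  rw [e4] at h3
  have key : (n : ℝ) ^ (B - m) / 36 ≤ √(Var[freeEnergy n β; disorder n]) := by linarith
  have h7 : ((n : ℝ) ^ (B - m) / 36) ^ 2 ≤ Var[freeEnergy n β; disorder n] := by
    have := pow_le_pow_left₀ (by positivity) key 2
    rwa [Real.sq_sqrt (variance_nonneg _ _)] at this
  refine le_trans ?_ h7
  rw [div_pow, le_div_iff₀ (by norm_num), ← Real.rpow_natCast ((n : ℝ) ^ (B - m)),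
    ← Real.rpow_mul hn0.le]
  have e1 : ((B - m) * ((2 : ℕ) : ℝ) : ℝ) = γ + (2 * B - 2 * m - γ) := by
    push_cast; ring
  rw [e1, Real.rpow_add hn0]
  exact mul_le_mul_of_nonneg_left k5 (by positivity)

end Vale.Agent.P146.H695.Sub
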