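import Vale.Agent.P146.H695.Lim

/-!
# P146: two-sided exponential moment and small balls of the free energy
-/

open MeasureTheory ProbabilityTheory Set Filter Topology

namespace Vale.Agent.P146.H695

open Vale.Agent.P146.H605

/-- Two-sided exponential moment at the scale of the standard deviation. -/
theorem exp_abs (n : ℕ) (β : ℝ) {x : ℝ} (hx : 0 ≤ x)
    (hx1 : x * (18 * (1 + √Var[freeEnergy n β; disorder n])) ≤ 1) :
    Integrable (fun g => Real.exp (x * |freeEnergy n β g -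
      ∫ h, freeEnergy n β h ∂(disorder n)|)) (disorder n) ∧
    ∫ g, Real.exp (x * |freeEnergy n β g - ∫ h, freeEnergy n β h ∂(disorder n)|)
      ∂(disorder n) ≤ 7 := by
  obtain ⟨i1, b1⟩ := H641.exp_moment n β hx (show x * (18 * H641.sd1 n β) ≤ 1 from hx1)
  obtain ⟨i2, b2⟩ := H655.exp_moment_neg n β hx hx1
  have i1' : Integrable (fun g => Real.exp (x * (freeEnergy n β g - mn n β))) (disorder n) := i1
  have i2' : Integrable (fun g => Real.exp (-(x * (freeEnergy n β g - mn n β)))) (disorder n) := i2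
  have hpt : ∀ g, Real.exp (x * |freeEnergy n β g - mn n β|) ≤
      Real.exp (x * (freeEnergy n β g - mn n β)) +
        Real.exp (-(x * (freeEnergy n β g - mn n β))) := fun g => by
    rcases abs_cases (freeEnergy n β g - mn n β) with ⟨h, -⟩ | ⟨h, -⟩
    · rw [h]
      linarith [Real.exp_pos (-(x * (freeEnergy n β g - mn n β)))]
    · rw [h, show x * -(freeEnergy n β g - mn n β) = -(x * (freeEnergy n β g - mn n β)) by ring]
      linarith [Real.exp_pos (x * (freeEnergy n β g - mn n β))]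
  have hc : Continuous fun g => Real.exp (x * |freeEnergy n β g - mn n β|) := by
    have := H863.cont_freeEnergy n β
    fun_prop
  have hi : Integrable (fun g => Real.exp (x * |freeEnergy n β g - mn n β|)) (disorder n) := by
    refine (i1'.add i2').mono' hc.aestronglyMeasurable (Eventually.of_forall fun g => ?_)
    rw [Real.norm_of_nonneg (Real.exp_pos _).le]
    exact hpt g
  refine ⟨hi, (integral_mono hi (i1'.add i2') hpt).trans ?_⟩
  have h1 : ∫ g, Real.exp (x * (freeEnergy n β g - mn n β)) ∂(disorder n) ≤ 7 / 2 := b1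
  have h2 : ∫ g, Real.exp (-(x * (freeEnergy n β g - mn n β))) ∂(disorder n) ≤ 7 / 2 := b2
  have h3 := integral_add i1' i2'
  simp only [Pi.add_apply]
  rw [h3]
  linarith

/-- Small balls at a power scale. -/
theorem small_pow {β : ℝ} (hβ : 1 < β) {κ : ℝ} (hκ0 : 0 ≤ κ) (hκ : κ < 1 / 32) :
    ∀ᶠ n : ℕ in atTop, ∀ y : ℝ,
      (disorder n).real {g | |freeEnergy n β g - y| ≤ (n : ℝ) ^ κ} ≤ (n : ℝ) ^ (-κ) := by
  obtain ⟨γ, hγ⟩ : ∃ γ, γ = (4 * κ + 1 / 8) / 2 := ⟨_, rfl⟩
  have hγ1 : γ < 1 / 8 := by rw [hγ]; linarith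
  have hγ2 : 4 * κ < γ := by rw [hγ]; linarith
  have h1 := H425.LowA.var_low H641.flat' hβ γ hγ1
  have h2 : Tendsto (fun n : ℕ => (n : ℝ) ^ (γ / 2 - 2 * κ)) atTop atTop :=
    (tendsto_rpow_atTop (by linarith)).comp tendsto_natCast_atTop_atTop
  filter_upwards [h1, h2.eventually_ge_atTop 5220, eventually_ge_atTop 1] with n h3 h4 hn y
  have hn1 : (1 : ℝ) ≤ n := by exact_mod_cast hn
  have hn0 : (0 : ℝ) < n := by linarith
  have hk1 : 1 ≤ (n : ℝ) ^ κ := Real.one_le_rpow hn1 hκ0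
  refine (H655.anticoncentration n β y (by positivity)).trans ?_
  have hs : (n : ℝ) ^ (γ / 2) ≤ 1 + √Var[freeEnergy n β; disorder n] := by
    have h5 : (n : ℝ) ^ (γ / 2) = √((n : ℝ) ^ γ) := by
      rw [Real.sqrt_eq_rpow, ← Real.rpow_mul hn0.le]
      congr 1
      ring
    rw [h5]
    have := Real.sqrt_le_sqrt h3.1
    linarith
  have hg : 0 < (n : ℝ) ^ (γ / 2) := by positivity
  calc 2610 * ((n : ℝ) ^ κ + 1) / (1 + √Var[freeEnergy n β; disorder n])
      ≤ 2610 * ((n : ℝ) ^ κ + (n : ℝ) ^ κ) / (n : ℝ) ^ (γ / 2) := by gcongr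
    _ = (5220 * (n : ℝ) ^ (2 * κ)) * (n : ℝ) ^ (-κ) / (n : ℝ) ^ (γ / 2) := by
        rw [mul_assoc, ← Real.rpow_add hn0]
        rw [show 2 * κ + -κ = κ by ring]
        ring
    _ ≤ ((n : ℝ) ^ (γ / 2 - 2 * κ) * (n : ℝ) ^ (2 * κ)) * (n : ℝ) ^ (-κ) / (n : ℝ) ^ (γ / 2) := by
        gcongr
    _ = (n : ℝ) ^ (-κ) := by
        rw [← Real.rpow_add hn0, show γ / 2 - 2 * κ + 2 * κ = γ / 2 by ring]
        field_simp

end Vale.Agent.P146.H695
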